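import Vale.Agent.P202.Mixed.Main.Regular

/-!
# P202 mixed characteristic, block G: powers of the parameters

The length of a module modulo the `N`-th powers of the parameters grows like `N ^ e` up to the
stable error.
-/

noncomputable section

namespace Vale.Agent.P202.Mixed.MainG

open IsLocalRing

universe u

variable {B : Type u} [CommRing B] {T : Type u} [CommRing T] [Algebra B T]

/-- Multiples of the elements cut out a smaller ideal. -/
theorem parIdeal_le_of_dvd {e : ℕ} {z z' : Fin e → B} (h : ∀ i, z i ∣ z' i) :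
    parIdeal T z' ≤ parIdeal T z :=
  sup_le_sup_left (Ideal.span_le.2 (by
    rintro _ ⟨i, rfl⟩
    exact Ideal.mem_of_dvd _ (h i) (Ideal.subset_span ⟨i, rfl⟩))) _

/-- The parameters with those in the subset raised to a power. -/
def powVec {e : ℕ} (z : Fin e → B) (N : ℕ) (S : Finset (Fin e)) : Fin e → B :=
  fun i => z i ^ (if i ∈ S then N else 1)

theorem powVec_empty {e : ℕ} (z : Fin e → B) (N : ℕ) : powVec z N ∅ = z :=
  funext fun i => by simp [powVec]

theorem powVec_univ {e : ℕ} (z : Fin e → B) (N : ℕ) :
    powVec z N Finset.univ = fun i => z i ^ N := funext fun i => by simp [powVec]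

theorem powVec_insert {e : ℕ} (z : Fin e → B) (N : ℕ) {S : Finset (Fin e)} (i : Fin e) :
    powVec z N (insert i S) = Function.update (powVec z N S) i (z i ^ N) := funext fun j => by
  by_cases h : j = i
  · subst h; simp [powVec]
  · simp [powVec, h]

theorem powVec_update_one {e : ℕ} (z : Fin e → B) (N : ℕ) {S : Finset (Fin e)} {i : Fin e}
    (hi : i ∉ S) : Function.update (powVec z N S) i (z i) = powVec z N S := funext fun j => by
  by_cases h : j = i
  · subst h; simp [powVec, hi]
  · simp [Function.update_of_ne h]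

theorem parIdeal_powVec_le {e : ℕ} (z : Fin e → B) {N : ℕ} (S : Finset (Fin e)) (i : Fin e)
    {k : ℕ} (hN : 1 ≤ N) (hk : k ≤ N) :
    parIdeal T (fun j => z j ^ N) ≤ parIdeal T (Function.update (powVec z N S) i (z i ^ k)) := by
  refine parIdeal_le_of_dvd fun j => ?_
  by_cases h : j = i
  · subst h; rw [Function.update_self]; exact pow_dvd_pow _ hk
  · rw [Function.update_of_ne h, powVec]
    exact pow_dvd_pow _ (by split_ifs <;> omega)

variable [IsLocalRing B] (Φ : NC.Reso B T) (hT : Function.Surjective (algebraMap B T))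

include hT in
/-- The growth of the length modulo powers of the parameters. -/
theorem qLen_pow_le {e : ℕ} (z : Fin e → B) (N : ℕ) (hN : 1 ≤ N) {d : ℕ} (M : Type u)
    [AddCommGroup M] [Module (Rz B d) M] [Module B M] [IsScalarTower B (Rz B d) M] (K w : ℕ)
    (w' : Finset (Fin e) → Fin e → ℕ → ℕ)
    (hfil : (fil B (d := d) M K (w : ℤ)).restrictScalars B ≤
      parIdeal T (fun i => z i ^ N) • (⊤ : Submodule B M)) (B₀ : ℕ∞)
    (hst : ∀ S i k, k ≤ N → stabLen B (d := d) M
      (par Φ (Function.update (powVec z N S) i (z i ^ k))) K 0 (w : ℤ) (w' S i k : ℤ) 1 ≤ B₀) :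
    ((N ^ e : ℕ) : ℕ∞) * qLen (parIdeal T z) M ≤
      qLen (parIdeal T fun i => z i ^ N) M + ((e * N ^ e : ℕ) : ℕ∞) * B₀ := by
  classical
  suffices h : ∀ S : Finset (Fin e), ((N ^ S.card : ℕ) : ℕ∞) * qLen (parIdeal T z) M ≤
      qLen (parIdeal T (powVec z N S)) M + ((S.card * N ^ S.card : ℕ) : ℕ∞) * B₀ by
    simpa [powVec_univ] using h Finset.univ
  intro S
  induction S using Finset.induction with
  | empty => simp [powVec_empty]
  | @insert i S hi ih =>
    have inner : ∀ k, k ≤ N → (k : ℕ∞) * qLen (parIdeal T (powVec z N S)) M ≤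
        qLen (parIdeal T (Function.update (powVec z N S) i (z i ^ k))) M + (k : ℕ∞) * B₀ := by
      intro k
      induction k with
      | zero => intro _; simp
      | succ k ihk =>
        intro hk
        have hfil' : (fil B (d := d) M K (w : ℤ)).restrictScalars B ≤
            parIdeal T (Function.update (powVec z N S) i (z i)) • (⊤ : Submodule B M) :=
          hfil.trans (Submodule.smul_mono_left (by
            have := parIdeal_powVec_le (T := T) z S i hN hN
            rwa [pow_one] at this))
        have hstep := (qLen_step Φ (powVec z N S) hT M K w (w' S i k) i (z i ^ k) (z i) hfil').trans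
          (add_le_add le_rfl (hst S i k (by omega)))
        rw [powVec_update_one z N hi, ← pow_succ] at hstep
        calc ((k + 1 : ℕ) : ℕ∞) * qLen (parIdeal T (powVec z N S)) M
            = (k : ℕ∞) * qLen (parIdeal T (powVec z N S)) M +
                qLen (parIdeal T (powVec z N S)) M := by push_cast; ring
          _ ≤ qLen (parIdeal T (Function.update (powVec z N S) i (z i ^ k))) M + (k : ℕ∞) * B₀ +
                qLen (parIdeal T (powVec z N S)) M := add_le_add (ihk (by omega)) le_rfl
          _ = qLen (parIdeal T (Function.update (powVec z N S) i (z i ^ k))) M +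
                qLen (parIdeal T (powVec z N S)) M + (k : ℕ∞) * B₀ := by abel
          _ ≤ qLen (parIdeal T (Function.update (powVec z N S) i (z i ^ (k + 1)))) M + B₀ +
                (k : ℕ∞) * B₀ := add_le_add hstep le_rfl
          _ = _ := by push_cast; ring
    rw [powVec_insert, Finset.card_insert_of_notMem hi]
    have hc : N + N * (S.card * N ^ S.card) ≤ (S.card + 1) * N ^ (S.card + 1) := by
      rw [pow_succ]
      nlinarith [Nat.one_le_pow S.card N hN]
    calc ((N ^ (S.card + 1) : ℕ) : ℕ∞) * qLen (parIdeal T z) M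
        = (N : ℕ∞) * (((N ^ S.card : ℕ) : ℕ∞) * qLen (parIdeal T z) M) := by push_cast; ring
      _ ≤ (N : ℕ∞) * (qLen (parIdeal T (powVec z N S)) M +
            ((S.card * N ^ S.card : ℕ) : ℕ∞) * B₀) := mul_le_mul_of_nonneg_left ih zero_le
      _ = (N : ℕ∞) * qLen (parIdeal T (powVec z N S)) M +
            ((N * (S.card * N ^ S.card) : ℕ) : ℕ∞) * B₀ := by push_cast; ring
      _ ≤ qLen (parIdeal T (Function.update (powVec z N S) i (z i ^ N))) M + (N : ℕ∞) * B₀ +
            ((N * (S.card * N ^ S.card) : ℕ) : ℕ∞) * B₀ := add_le_add (inner N le_rfl) le_rfl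
      _ = qLen (parIdeal T (Function.update (powVec z N S) i (z i ^ N))) M +
            ((N + N * (S.card * N ^ S.card) : ℕ) : ℕ∞) * B₀ := by push_cast; ring
      _ ≤ _ := add_le_add le_rfl (mul_le_mul_of_nonneg_right (Nat.cast_le.2 hc) zero_le)

end Vale.Agent.P202.Mixed.MainG
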