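import Vale.Agent.P202.Mixed.Main.Step
import Vale.Agent.P202.Mixed.Main.Power
import Vale.Agent.P202.Mixed.Interface

/-!
# P202 mixed characteristic, block G: the multiplicity bound

The window, stable vanishing and the chains give that the degree of a model is at most the leading
coefficient of the box lengths of a quotient of finite projective dimension.
-/

noncomputable section

namespace Vale.Agent.P202.Mixed.MainG

open IsLocalRing

universe u

section Elementary

/-- A power of a sum of two natural numbers. -/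
theorem add_pow_le' (a b n : ℕ) : (a + b) ^ (n + 1) ≤ a ^ (n + 1) + (n + 1) * b * (a + b) ^ n := by
  induction n with
  | zero => simp
  | succ n ih =>
    have h1 : a * a ^ (n + 1) = a ^ (n + 2) := by ring
    have h2 : (n + 1) * b * (a + b) ^ n * a ≤ (n + 1) * b * (a + b) ^ (n + 1) := by
      rw [pow_succ (a + b) n, ← mul_assoc]
      exact Nat.mul_le_mul_left _ (Nat.le_add_right a b)
    calc (a + b) ^ (n + 1 + 1) = (a + b) ^ (n + 1) * a + b * (a + b) ^ (n + 1) := by ring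
      _ ≤ (a ^ (n + 1) + (n + 1) * b * (a + b) ^ n) * a + b * (a + b) ^ (n + 1) := by gcongr
      _ = a ^ (n + 2) + (n + 1) * b * (a + b) ^ n * a + b * (a + b) ^ (n + 1) := by ring
      _ ≤ a ^ (n + 2) + (n + 1) * b * (a + b) ^ (n + 1) + b * (a + b) ^ (n + 1) := by gcongr
      _ = _ := by ring

/-- Once the leading coefficient is positive, lower order terms lose. -/
theorem contradiction_of_bound (d e D E0 C0 C1 c0 re Q : ℕ) (he : 1 ≤ e) (hED : E0 < D)
    (hQ : (E0 + 1) * (d + 1) * (d + 5) + D * C1 + 1 ≤ Q) :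
    ∃ N : ℕ, 1 ≤ N ∧ ¬ (D * N ^ e * (Q - (d + 4) - 1) ^ (d + 1) ≤
      Q ^ (d + 1) * (E0 * N ^ e + C0 * (N + 1) ^ (e - 1)) +
        D * C1 * N ^ e * (Q - (d + 4)) ^ d +
          D * (3 * D + 6) * Q ^ (d + 1) * (c0 * (re * N + 1) ^ (e - 1)) + 1) := by
  obtain ⟨f, rfl⟩ : ∃ f, e = f + 1 := ⟨e - 1, by omega⟩
  simp only [Nat.add_sub_cancel]
  set R := Q ^ (d + 1) * C0 * 2 ^ f + D * (3 * D + 6) * Q ^ (d + 1) * c0 * (re + 1) ^ f + 1 with hR
  refine ⟨R + 1, by omega, fun h => ?_⟩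
  set N := R + 1 with hN
  set a := Q - (d + 4) - 1 with ha
  have hQd : d + 5 ≤ Q := by
    have : d + 5 ≤ (E0 + 1) * (d + 1) * (d + 5) := Nat.le_mul_of_pos_left _ (by positivity)
    omega
  have hab : Q = a + (d + 5) := by omega
  have h1 : Q ^ (d + 1) ≤ a ^ (d + 1) + (d + 1) * (d + 5) * Q ^ d := by
    rw [hab]; exact add_pow_le' _ _ _
  have h2 : (Q - (d + 4)) ^ d ≤ Q ^ d := Nat.pow_le_pow_left (Nat.sub_le _ _) d
  have h3 : E0 * Q ^ (d + 1) + D * C1 * Q ^ d + Q ^ d ≤ (E0 + 1) * a ^ (d + 1) := by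
    have h4 := Nat.mul_le_mul_right (Q ^ d) hQ
    have h5 := Nat.mul_le_mul_left (E0 + 1) h1
    rw [show Q * Q ^ d = Q ^ (d + 1) by ring] at h4
    nlinarith
  have h6 : (N + 1) ^ f ≤ 2 ^ f * N ^ f := by
    rw [← mul_pow]; exact Nat.pow_le_pow_left (by omega) f
  have h7 : (re * N + 1) ^ f ≤ (re + 1) ^ f * N ^ f := by
    rw [← mul_pow]; exact Nat.pow_le_pow_left (by nlinarith) f
  have hQpos : 1 ≤ Q ^ d := Nat.one_le_pow _ _ (by omega)
  have hNf : 1 ≤ N ^ f := Nat.one_le_pow _ _ (by omega)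
  have h8 : N ^ (f + 1) * ((E0 + 1) * a ^ (d + 1)) ≤ D * N ^ (f + 1) * a ^ (d + 1) := by
    calc _ ≤ N ^ (f + 1) * (D * a ^ (d + 1)) := by gcongr; omega
      _ = _ := by ring
  have h9 : N ^ (f + 1) ≤ R * N ^ f := by
    have e1 := Nat.mul_le_mul_left (N ^ (f + 1)) h3
    have e2 := Nat.mul_le_mul_left (Q ^ (d + 1) * C0) h6
    have e3 := Nat.mul_le_mul_left (D * (3 * D + 6) * Q ^ (d + 1) * c0) h7
    have e4 := Nat.mul_le_mul_left (D * C1 * N ^ (f + 1)) h2
    have e5 := Nat.mul_le_mul_left (N ^ (f + 1)) hQpos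
    rw [hR]
    nlinarith
  rw [pow_succ, mul_comm R] at h9
  have := Nat.le_of_mul_le_mul_left h9 (by omega)
  omega

/-- The total of the steps, divided by the number of generators. -/
theorem final_arith (D P A D₁ Qn L CW Cs Cim C1 Kd eP τ E : ℕ) (hD₁ : 0 < D₁)
    (htot : D * (P * D₁ * A) ≤ D₁ * Qn * L + D * (P * (CW * E + C1 * D₁ * Kd) + eP * (Cs * E) +
      (Cim * E + (3 * D + 6) * (D₁ * Qn * τ) + 4 * E)))
    (hE : D * (P * CW + eP * Cs + Cim + 4) * E ≤ D₁) :
    D * P * A ≤ Qn * L + D * C1 * P * Kd + D * (3 * D + 6) * Qn * τ + 1 := by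
  refine le_of_mul_le_mul_left (a := D₁) ?_ hD₁
  linarith

end Elementary

section Ring

variable {B : Type u} [CommRing B] {T : Type u} [CommRing T] [Algebra B T]
  (hT : Function.Surjective (algebraMap B T))

include hT in
/-- The ideal of lifts is the preimage. -/
theorem parIdeal_eq_comap {e : ℕ} (z : Fin e → B) :
    parIdeal T z = (Ideal.span (Set.range fun i => algebraMap B T (z i))).comap (algebraMap B T) := by
  rw [show (fun i => algebraMap B T (z i)) = algebraMap B T ∘ z from rfl, Set.range_comp,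
    ← Ideal.map_span, Ideal.comap_map_of_surjective _ hT, sup_comm]
  rfl

include hT in
/-- Lengths of quotients over either ring. -/
theorem length_quot_comap (I : Ideal T) :
    Module.length B (B ⧸ I.comap (algebraMap B T)) = Module.length T (T ⧸ I) := by
  rw [← Module.length_eq_of_surjective (M := T ⧸ I) hT]
  let f : B →ₗ[B] (T ⧸ I) := (I.mkQ.restrictScalars B).comp (Algebra.linearMap B T)
  have hf : Function.Surjective f := fun q => by
    obtain ⟨t, rfl⟩ := Submodule.Quotient.mk_surjective _ q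
    obtain ⟨b, rfl⟩ := hT t
    exact ⟨b, rfl⟩
  have hker : LinearMap.ker f = I.comap (algebraMap B T) := by
    ext b
    exact Submodule.Quotient.mk_eq_zero I
  rw [← (f.quotKerEquivOfSurjective hf).length_eq, hker]

/-- A high power of the span lies in the span of powers. -/
theorem span_pow_le {e : ℕ} (y : Fin e → T) (N : ℕ) :
    Ideal.span (Set.range y) ^ (e * N + 1) ≤ Ideal.span (Set.range fun i => y i ^ N) := by
  classical
  suffices h : ∀ S : Finset (Fin e), (⨆ i ∈ S, Ideal.span {y i}) ^ (S.card * N + 1) ≤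
      Ideal.span (Set.range fun i => y i ^ N) by
    have h1 := h Finset.univ
    rw [Finset.card_univ, Fintype.card_fin] at h1
    refine le_trans (Ideal.pow_right_mono (Ideal.span_le.2 ?_) _) h1
    rintro _ ⟨i, rfl⟩
    exact Ideal.mem_iSup_of_mem i (Ideal.mem_iSup_of_mem (Finset.mem_univ i)
      (Ideal.mem_span_singleton_self _))
  intro S
  induction S using Finset.induction with
  | empty => simp
  | @insert i S hi ih =>
    rw [Finset.iSup_insert, Finset.card_insert_of_notMem hi,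
      show (S.card + 1) * N + 1 = N + (S.card * N + 1) by ring]
    refine Ideal.sup_pow_add_le_pow_sup_pow.trans (sup_le ?_ ih)
    rw [Ideal.span_singleton_pow, Ideal.span_singleton_le_iff_mem]
    exact Ideal.subset_span ⟨i, rfl⟩

end Ring

section Tower

variable {B : Type u} [CommRing B] [IsLocalRing B] {T : Type u} [CommRing T] [Algebra B T]
  (Φ : NC.Reso B T) {e : ℕ} (z : Fin e → B) (hT : Function.Surjective (algebraMap B T))
  {d : ℕ} {x : Fin d → B} {h : B} {D Q K v D₁ E : ℕ} (Ch : Chain B x h D Q K v D₁ E)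

include hT in
/-- The sum of the steps of the tower. -/
theorem sum_le_tower (hJ : Module.length B (B ⧸ parIdeal T z) ≠ ⊤) {w W : ℕ} (hw : w ≤ W)
    (hW : W ≤ v) (hfil : ∀ l, l < D → ∀ u, w ≤ u → (fil B (d := d) (Ch.M l) K
      ((u - l * K : ℕ) : ℤ)).restrictScalars B ≤ parIdeal T z • (⊤ : Submodule B (Ch.M l)))
    (B₀ : ℕ∞) (him : ∀ l, l < D → imLen (par Φ z) (h ^ (3 * l) • Ch.res l w W hw) ≤ B₀)
    (g A : ℕ∞) (hg : ∀ l, l < D → g ≤ qLen (parIdeal T z) (Ch.M l) + A) :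
    (D : ℕ∞) * g ≤ ((D₁ * Q ^ d : ℕ) : ℕ∞) * Module.length B (B ⧸ parIdeal T z) +
      (D : ℕ∞) * (A + (B₀ + ((3 * D + 6 : ℕ) : ℕ∞) *
        (((D₁ * Q ^ d : ℕ) : ℕ∞) * Module.length B (B ⧸ (parIdeal T z ⊔ Ideal.span {h}))) +
        ((4 * E : ℕ) : ℕ∞))) := by
  set F := A + (B₀ + ((3 * D + 6 : ℕ) : ℕ∞) *
        (((D₁ * Q ^ d : ℕ) : ℕ∞) * Module.length B (B ⧸ (parIdeal T z ⊔ Ideal.span {h}))) +
        ((4 * E : ℕ) : ℕ∞)) with hF
  have key : ∀ l, l ≤ D → (l : ℕ∞) * g ≤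
      Module.length B (ModJ (parIdeal T z) (Ch.X l W)) + (l : ℕ∞) * F := by
    intro l
    induction l with
    | zero => intro _; simp
    | succ l ih =>
      intro hl
      have hs := qLen_step_tower Φ z hT Ch hJ hw hl hW (hfil l hl w le_rfl) (hfil l hl W hw) B₀
        (him l hl)
      calc ((l + 1 : ℕ) : ℕ∞) * g = g + (l : ℕ∞) * g := by push_cast; ring
        _ ≤ qLen (parIdeal T z) (Ch.M l) + A +
            (Module.length B (ModJ (parIdeal T z) (Ch.X l W)) + (l : ℕ∞) * F) :=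
          add_le_add (hg l hl) (ih (by omega))
        _ = qLen (parIdeal T z) (Ch.M l) + Module.length B (ModJ (parIdeal T z) (Ch.X l W)) +
            A + (l : ℕ∞) * F := by abel
        _ ≤ Module.length B (ModJ (parIdeal T z) (Ch.X (l + 1) W)) + (B₀ + ((3 * D + 6 : ℕ) : ℕ∞) *
            (((D₁ * Q ^ d : ℕ) : ℕ∞) * Module.length B (B ⧸ (parIdeal T z ⊔ Ideal.span {h}))) +
            ((4 * E : ℕ) : ℕ∞)) + A + (l : ℕ∞) * F := by
          refine add_le_add (add_le_add (hs.trans (add_le_add le_rfl (add_le_add (add_le_add le_rfl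
            (mul_le_mul_of_nonneg_right (Nat.cast_le.2 ?_) zero_le)) le_rfl))) le_rfl) le_rfl
          omega
        _ = _ := by rw [hF]; push_cast; ring
  refine (key D le_rfl).trans (add_le_add ?_ le_rfl)
  exact length_quot_smul_le (Ch.gensX W hW) _

end Tower

/-- The multiplicity bound, from the window, stable vanishing and the chains. -/
theorem mainStatement (hW : WindowStatement.{u}) (hS : StableStatement.{u})
    (hC : ChainStatement.{u}) : MainStatement.{u} := by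
  classical
  intro p hp L _ _ _ d hd B _ _ _ _ D Mo T _ _ _ hT s e he hse Φ hΦ hsmall y hy hyr E0 C0 hbox
  obtain ⟨c0, hc0⟩ := hsmall
  obtain ⟨r, hr⟩ := hyr
  by_contra hcon
  have hED : E0 < D := Nat.lt_of_not_le hcon
  set x := modelX B (WittVector p L) (d := d) with hxdef
  have hxm : ∀ a, x a ∈ maximalIdeal B := Mo.x_mem
  obtain ⟨r0, hr0⟩ := Mo.reduction
  have hxr : ∃ r, maximalIdeal B ^ r ≤ Ideal.span (Set.range x) :=
    ⟨r0 + 1, hr0.trans Ideal.mul_le_left⟩
  let z : Fin e → B := fun i => Function.surjInv hT (y i)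
  have hz : ∀ i, algebraMap B T (z i) = y i := fun i => Function.surjInv_eq hT (y i)
  have hmax : (maximalIdeal T).comap (algebraMap B T) = maximalIdeal B :=
    IsLocalRing.eq_maximalIdeal (Ideal.comap_isMaximal_of_surjective _ hT)
  have hparN : ∀ N, parIdeal T (fun i => z i ^ N) =
      (Ideal.span (Set.range fun i => y i ^ N)).comap (algebraMap B T) := fun N => by
    rw [parIdeal_eq_comap hT]
    simp only [map_pow, hz]
  have hmT : ∀ N, maximalIdeal T ^ (r * (e * N + 1)) ≤ Ideal.span (Set.range fun i => y i ^ N) :=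
    fun N => by
      rw [pow_mul]
      exact (Ideal.pow_right_mono hr _).trans (span_pow_le y N)
  have hdeep : ∀ N, maximalIdeal B ^ (r * (e * N + 1)) ≤ parIdeal T (fun i => z i ^ N) := fun N => by
    rw [hparN, ← Ideal.map_le_iff_le_comap, Ideal.map_pow]
    refine (Ideal.pow_right_mono ?_ _).trans (hmT N)
    rw [Ideal.map_le_iff_le_comap, hmax]
  -- the minimal complex of the parameters
  have hJ1 : parIdeal T z ≤ maximalIdeal B := by
    rw [parIdeal_eq_comap hT, ← hmax]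
    refine Ideal.comap_mono (Ideal.span_le.2 ?_)
    rintro _ ⟨i, rfl⟩
    change algebraMap B T (z i) ∈ maximalIdeal T
    rw [hz]; exact hy i
  have hlen : ∀ z' : Fin e → B, (par Φ z').LengthLE (d + 1) := fun z' =>
    hse ▸ par_lengthLE Φ z' hΦ
  have hdeep1 : maximalIdeal B ^ (r * (e * 1 + 1)) ≤ parIdeal T z := by
    have h1 := hdeep 1
    simp only [pow_one] at h1
    exact h1
  obtain ⟨G, hGl, hGm, hGn, hG0, hGq⟩ := exists_min Φ z hT x (hlen z) hJ1
    ⟨r * (e * 1 + 1), fun a => hdeep1 (Ideal.pow_mem_pow (hxm a) _)⟩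
  obtain ⟨C1, hC1⟩ := hW B (d + 1) (by omega) x hxm hxr G hGl hGm hGn
  -- the level `c`
  set Qmin := (E0 + 1) * (d + 1) * (d + 5) + D * C1 + 1 + (d + 6) with hQmin
  obtain ⟨c, hc⟩ : ∃ c, Qmin ≤ p ^ c :=
    ⟨Qmin, (Nat.lt_pow_self hp.out.one_lt).le⟩
  set Q := p ^ c with hQdef
  set K := Q - (d + 4) with hKdef
  -- the exponent
  obtain ⟨N, hN, hNbad⟩ := contradiction_of_bound d e D E0 C0 C1 c0 (r * (e + 1)) Q he hED
    (by omega)
  set zN : Fin e → B := fun i => z i ^ N with hzN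
  set J := parIdeal T zN with hJdef
  have hJbox : Module.length B (B ⧸ J) ≤ ((E0 * N ^ e + C0 * (N + 1) ^ (e - 1) : ℕ) : ℕ∞) := by
    rw [hJdef, hparN, length_quot_comap hT]
    exact hbox N
  have hJfin : Module.length B (B ⧸ J) ≠ ⊤ := ne_top_of_le_ne_top (ENat.natCast_ne_top _) hJbox
  set τ := c0 * (r * (e + 1) * N + 1) ^ (e - 1) with hτ
  have hJh : Module.length B (B ⧸ (J ⊔ Ideal.span {Mo.h})) ≤ (τ : ℕ∞) := by
    set I := Ideal.span (Set.range fun i => y i ^ N) ⊔ Ideal.span {algebraMap B T Mo.h} with hI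
    have h1 : I.comap (algebraMap B T) = J ⊔ Ideal.span {Mo.h} := by
      have h2 : I = (J ⊔ Ideal.span {Mo.h}).map (algebraMap B T) := by
        rw [Ideal.map_sup, hJdef, hparN, Ideal.map_comap_of_surjective _ hT, Ideal.map_span,
          Set.image_singleton]
      have h3 : Ideal.comap (algebraMap B T) ⊥ ≤ J ⊔ Ideal.span {Mo.h} :=
        le_sup_of_le_left le_sup_left
      rw [h2, Ideal.comap_map_of_surjective _ hT, sup_eq_left.2 h3]
    rw [← h1, length_quot_comap hT]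
    set M := r * (e + 1) * N with hM
    have h4 : Ideal.span {algebraMap B T Mo.h} ⊔ maximalIdeal T ^ M ≤ I := by
      refine sup_le le_sup_right (le_trans ?_ le_sup_left)
      refine (Ideal.pow_le_pow_right ?_).trans (hmT N)
      rw [hM, mul_assoc, add_mul, one_mul]
      exact Nat.mul_le_mul_left _ (by omega)
    refine (length_quot_le_of_le (B := T) h4).trans ?_
    have h5 := hc0 M
    obtain ⟨f, rfl⟩ : ∃ f, e = f + 1 := ⟨e - 1, by omega⟩
    generalize Module.length T (T ⧸ (Ideal.span {algebraMap B T Mo.h} ⊔ maximalIdeal T ^ M)) = t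
      at h5 ⊢
    rw [hτ, Nat.add_sub_cancel]
    rw [pow_succ, Nat.cast_mul ((M + 1) ^ f), ← mul_assoc] at h5
    induction t with
    | top =>
      rw [ENat.top_mul (by simp), top_le_iff] at h5
      exact absurd h5 (by norm_cast)
    | coe t =>
      norm_cast at h5 ⊢
      exact Nat.le_of_mul_le_mul_right h5 (by omega)
  obtain ⟨w0, hw0⟩ := exists_fil_le (B := B) x Q K J ⟨_, hdeep N⟩ hxm
  set w := w0 + D * K with hwdef
  -- the constants of the tower
  have hQ1 : 1 ≤ Q := by omega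
  have hK1 : 1 ≤ K := by omega
  have hJn : ∀ z' : Fin e → B, J ≤ parIdeal T z' → NullPowers (par Φ z') x := fun z' hz' =>
    nullPowers_of_le x _ _ (parIdeal_le_nullIdeal Φ z')
      ⟨_, fun a => hz' (hdeep N (Ideal.pow_mem_pow (hxm a) _))⟩
  have hsmallT := fun l : Fin D => imLen_res_le hS (Nat.le_add_left 1 d) x hxr (par Φ zN) (hlen zN)
    (hJn zN le_rfl) Mo.h D Q K hQ1 hK1 l w
  choose Wl hWl vI hvI hCI using hsmallT
  set W := w ⊔ Finset.univ.sup Wl with hWdef
  have hwW : w ≤ W := le_sup_left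
  -- stable vanishing for the powers
  have hreg := fun q : Finset (Fin e) × Fin e × Fin (N + 1) => hS B (d + 1) (by omega) x hxr
    (par Φ (Function.update (powVec z N q.1) q.2.1 (z q.2.1 ^ (q.2.2 : ℕ)))) (hlen _)
    (hJn _ (parIdeal_powVec_le z q.1 q.2.1 hN (Nat.le_of_lt_succ q.2.2.2))) Q K 0 hQ1 hK1
    (Or.inl rfl)
  choose Δ hΔ using hreg
  choose vS hvS using fun q => hΔ q w0
  obtain ⟨vW, hvW⟩ := hC1 Q K (by omega) (by omega)
  set v := vW ⊔ W ⊔ Finset.univ.sup vI ⊔ Finset.univ.sup vS with hvdef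
  have hvW' : vW ≤ v := le_sup_of_le_left (le_sup_of_le_left le_sup_left)
  have hWv : W ≤ v := le_sup_of_le_left (le_sup_of_le_left le_sup_right)
  choose CI hCI using fun l : Fin D => hCI l v
    (le_sup_of_le_left (le_sup_of_le_right (Finset.le_sup (Finset.mem_univ l))))
  choose CS hCS using fun q => hvS q v (le_sup_of_le_right (Finset.le_sup (Finset.mem_univ q)))
  obtain ⟨CW, hCW⟩ := hvW v hvW'
  set Csum := ∑ q, CS q with hCsum
  set Cim := ∑ l, CI l with hCim
  obtain ⟨D₁, E, hD₁, hE, ⟨Ch⟩⟩ := hC p L d hd B D Mo c K hK1 (by omega) v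
    (D * (N ^ e * CW + e * N ^ e * Csum + Cim + 4))
  have hfil : ∀ l, l < D → ∀ u, w ≤ u → (fil B (d := d + 1) (Ch.M l) K
      ((u - l * K : ℕ) : ℤ)).restrictScalars B ≤ J • (⊤ : Submodule B (Ch.M l)) := fun l hl u hu =>
    hw0 (Ch.M l) (Ch.almostFree l hl).x_smul _ (by
      have : l * K ≤ D * K := Nat.mul_le_mul_right K hl.le
      omega)
  have him : ∀ l, l < D → imLen (par Φ zN) (Mo.h ^ (3 * l) • Ch.res l w W hwW) ≤
      ((Cim * E : ℕ) : ℕ∞) := by
    intro l hl
    have hlW : Wl ⟨l, hl⟩ ≤ W := le_sup_of_le_right (Finset.le_sup (Finset.mem_univ _))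
    have e1 : Mo.h ^ (3 * l) • Ch.res l w W hwW =
        (Mo.h ^ (3 * l) • Ch.res l w (Wl ⟨l, hl⟩) (hWl ⟨l, hl⟩)).comp
          (Ch.res l (Wl ⟨l, hl⟩) W hlW) := LinearMap.ext fun a => by
      simp only [LinearMap.comp_apply, LinearMap.smul_apply,
        Ch.res_trans l w (Wl ⟨l, hl⟩) W (hWl ⟨l, hl⟩) hlW hl.le hWv]
    rw [e1]
    exact (imLen_comp_le' _ _ _).trans ((hCI ⟨l, hl⟩ D₁ E Ch hl.le).trans (Nat.cast_le.2
      (Nat.mul_le_mul_right E (Finset.single_le_sum (fun i _ => Nat.zero_le (CI i))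
        (Finset.mem_univ _)))))
  have hg : ∀ l, l < D → ((N ^ e * D₁ * (K - 1) ^ (d + 1) : ℕ) : ℕ∞) ≤ qLen J (Ch.M l) +
      ((N ^ e * (CW * E + C1 * D₁ * K ^ d) + e * N ^ e * (Csum * E) : ℕ) : ℕ∞) := by
    intro l hl
    have h1 : ((D₁ * (K - 1) ^ (d + 1) : ℕ) : ℕ∞) ≤ qLen (parIdeal T z) (Ch.M l) +
        ((CW * E + C1 * D₁ * K ^ d : ℕ) : ℕ∞) := by
      refine le_trans (Nat.cast_le.2 ?_) ((hCW (Ch.M l) D₁ E (Ch.almostFree l hl)).trans
        (add_le_add (hGq (Ch.M l)) le_rfl))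
      calc D₁ * (K - 1) ^ (d + 1) = 1 * D₁ * (K - 1) ^ (d + 1) := by rw [one_mul]
        _ ≤ _ := by gcongr
    have h2 := qLen_pow_le Φ hT z N hN (Ch.M l) K w0
      (fun S i k => w0 + if hk : k ≤ N then Δ (S, i, ⟨k, Nat.lt_succ_of_le hk⟩) else 0)
      (hw0 (Ch.M l) (Ch.almostFree l hl).x_smul w0 le_rfl) ((Csum * E : ℕ) : ℕ∞) (fun S i k hk => by
        rw [dif_pos hk]
        exact (hCS (S, i, ⟨k, Nat.lt_succ_of_le hk⟩) (Ch.M l) D₁ E (Ch.almostFree l hl) 1
          le_rfl).trans (Nat.cast_le.2 (Nat.mul_le_mul_right E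
            (Finset.single_le_sum (fun i _ => Nat.zero_le (CS i)) (Finset.mem_univ _)))))
    calc ((N ^ e * D₁ * (K - 1) ^ (d + 1) : ℕ) : ℕ∞)
        = ((N ^ e : ℕ) : ℕ∞) * ((D₁ * (K - 1) ^ (d + 1) : ℕ) : ℕ∞) := by push_cast; ring
      _ ≤ ((N ^ e : ℕ) : ℕ∞) * (qLen (parIdeal T z) (Ch.M l) +
            ((CW * E + C1 * D₁ * K ^ d : ℕ) : ℕ∞)) := mul_le_mul_of_nonneg_left h1 zero_le
      _ = ((N ^ e : ℕ) : ℕ∞) * qLen (parIdeal T z) (Ch.M l) +
            ((N ^ e * (CW * E + C1 * D₁ * K ^ d) : ℕ) : ℕ∞) := by push_cast; ring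
      _ ≤ qLen J (Ch.M l) + ((e * N ^ e : ℕ) : ℕ∞) * ((Csum * E : ℕ) : ℕ∞) +
            ((N ^ e * (CW * E + C1 * D₁ * K ^ d) : ℕ) : ℕ∞) := add_le_add h2 le_rfl
      _ = _ := by push_cast; ring
  have htot := (sum_le_tower Φ zN hT Ch hJfin hwW hWv hfil _ him _ _ hg).trans (add_le_add
    (mul_le_mul_of_nonneg_left hJbox zero_le) (mul_le_mul_of_nonneg_left (add_le_add le_rfl
      (add_le_add (add_le_add le_rfl (mul_le_mul_of_nonneg_left
        (mul_le_mul_of_nonneg_left hJh zero_le) zero_le)) le_rfl)) zero_le))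
  norm_cast at htot
  exact hNbad (final_arith D (N ^ e) ((K - 1) ^ (d + 1)) D₁ (Q ^ (d + 1))
    (E0 * N ^ e + C0 * (N + 1) ^ (e - 1)) CW Csum Cim C1 (K ^ d) (e * N ^ e) τ E hD₁ htot hE)

end Vale.Agent.P202.Mixed.MainG
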