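import Vale.Agent.P202.Mixed.Defs

/-!
# P202 mixed characteristic, block G: the complexes of a quotient and parameters

The tensor product of a resolution of `T` over `B` with the Koszul complex of lifts of elements of
`T`: its augmentation, its homology in position zero and its null-homotopies.
-/

noncomputable section

namespace Vale.Agent.P202.Mixed.MainG

open Matrix
open scoped Kronecker

universe u

variable {B : Type u} [CommRing B]

/-- The ideal of the elements having a null-homotopy of degree one. -/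
def nullIdeal (G : FreeCx B) : Ideal B where
  carrier := {r | ∃ s : Matrix G.ι G.ι B,
    (∀ h g, s h g ≠ 0 → G.pos h = G.pos g + 1) ∧ G.mat * s + s * G.mat = r • 1}
  zero_mem' := ⟨0, fun h g hh => absurd rfl hh, by simp⟩
  add_mem' := by
    rintro a b ⟨s, hs, es⟩ ⟨t, ht, et⟩
    refine ⟨s + t, fun h g hh => ?_, ?_⟩
    · by_cases h0 : s h g = 0
      · exact ht h g (by simpa [h0] using hh)
      · exact hs h g h0
    · rw [Matrix.mul_add, Matrix.add_mul, add_smul, ← es, ← et]; abel
  smul_mem' := by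
    rintro c a ⟨s, hs, es⟩
    refine ⟨c • s, fun h g hh => hs h g fun h0 => hh (by simp [h0]), ?_⟩
    rw [Matrix.mul_smul, Matrix.smul_mul, ← smul_add, es, smul_smul, smul_eq_mul]

theorem mem_nullIdeal {G : FreeCx B} {r : B} : r ∈ nullIdeal G ↔ ∃ s : Matrix G.ι G.ι B,
    (∀ h g, s h g ≠ 0 → G.pos h = G.pos g + 1) ∧ G.mat * s + s * G.mat = r • 1 := Iff.rfl

/-- The diagonal of signs. -/
def sgnMat (F : FreeCx B) : Matrix F.ι F.ι B := Matrix.diagonal F.sgn

theorem sgnMat_sq (F : FreeCx B) : sgnMat F * sgnMat F = 1 := by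
  rw [sgnMat, Matrix.diagonal_mul_diagonal, ← Matrix.diagonal_one]
  congr 1
  funext g
  simp [FreeCx.sgn, ← pow_add, ← two_mul, pow_mul]

theorem sgnMat_anti (F : FreeCx B) (A : Matrix F.ι F.ι B)
    (hA : ∀ h g, A h g ≠ 0 → F.pos g = F.pos h + 1 ∨ F.pos h = F.pos g + 1) :
    sgnMat F * A + A * sgnMat F = 0 := by
  ext h g
  rw [Matrix.add_apply, sgnMat, Matrix.diagonal_mul, Matrix.mul_diagonal, Matrix.zero_apply]
  by_cases h0 : A h g = 0
  · simp [h0]
  · rcases hA h g h0 with e | e <;> simp [FreeCx.sgn, e, pow_succ] <;> ring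

theorem tensor_mat (F K : FreeCx B) :
    (F.tensor K).mat = F.mat ⊗ₖ (1 : Matrix K.ι K.ι B) + sgnMat F ⊗ₖ K.mat := by
  ext ⟨a, a'⟩ ⟨c, c'⟩
  change (if a' = c' then F.mat a c else 0) + (if a = c then F.sgn a * K.mat a' c' else 0) =
    F.mat a c * (1 : Matrix K.ι K.ι B) a' c' + sgnMat F a c * K.mat a' c'
  rw [sgnMat, Matrix.one_apply, Matrix.diagonal_apply]
  split_ifs <;> ring

theorem kron_homotopy_left {ι κ : Type} [Fintype ι] [DecidableEq ι] [Fintype κ] [DecidableEq κ]
    (A s σ : Matrix ι ι B) (K : Matrix κ κ B) (r : B) (h : A * s + s * A = r • 1)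
    (h' : σ * s + s * σ = 0) :
    (A ⊗ₖ (1 : Matrix κ κ B) + σ ⊗ₖ K) * (s ⊗ₖ (1 : Matrix κ κ B)) +
      (s ⊗ₖ (1 : Matrix κ κ B)) * (A ⊗ₖ (1 : Matrix κ κ B) + σ ⊗ₖ K) = r • 1 := by
  rw [Matrix.add_mul, Matrix.mul_add, ← Matrix.mul_kronecker_mul, ← Matrix.mul_kronecker_mul,
    ← Matrix.mul_kronecker_mul, ← Matrix.mul_kronecker_mul, Matrix.mul_one, Matrix.mul_one,
    Matrix.one_mul]
  rw [add_add_add_comm, ← Matrix.add_kronecker, ← Matrix.add_kronecker, h, h',
    Matrix.zero_kronecker, add_zero, Matrix.smul_kronecker, Matrix.one_kronecker_one]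

theorem kron_homotopy_right {ι κ : Type} [Fintype ι] [DecidableEq ι] [Fintype κ] [DecidableEq κ]
    (A σ : Matrix ι ι B) (K s : Matrix κ κ B) (r : B) (h : K * s + s * K = r • 1)
    (h' : σ * A + A * σ = 0) (hσ : σ * σ = 1) :
    (A ⊗ₖ (1 : Matrix κ κ B) + σ ⊗ₖ K) * (σ ⊗ₖ s) +
      (σ ⊗ₖ s) * (A ⊗ₖ (1 : Matrix κ κ B) + σ ⊗ₖ K) = r • 1 := by
  rw [Matrix.add_mul, Matrix.mul_add, ← Matrix.mul_kronecker_mul, ← Matrix.mul_kronecker_mul,
    ← Matrix.mul_kronecker_mul, ← Matrix.mul_kronecker_mul, hσ, Matrix.one_mul, Matrix.mul_one]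
  rw [add_add_add_comm, ← Matrix.add_kronecker, ← Matrix.kronecker_add, h, add_comm (A * σ), h',
    Matrix.zero_kronecker, zero_add, Matrix.kronecker_smul, Matrix.one_kronecker_one]

theorem nullIdeal_le_left (F K : FreeCx B) : nullIdeal F ≤ nullIdeal (F.tensor K) := by
  rintro r ⟨s, hs, es⟩
  refine mem_nullIdeal.2 ⟨s ⊗ₖ (1 : Matrix K.ι K.ι B), ?_, ?_⟩
  · rintro ⟨a, a'⟩ ⟨c, c'⟩ hh
    simp only [Matrix.kroneckerMap_apply] at hh
    have h1 : a' = c' := by_contra fun e => hh (by simp [Matrix.one_apply_ne e])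
    change F.pos a + K.pos a' = F.pos c + K.pos c' + 1
    rw [hs a c (left_ne_zero_of_mul hh), h1]
    omega
  · rw [tensor_mat]
    exact kron_homotopy_left _ s _ _ r es (sgnMat_anti F s fun h g h0 => Or.inr (hs h g h0))

theorem nullIdeal_le_right (F K : FreeCx B) : nullIdeal K ≤ nullIdeal (F.tensor K) := by
  rintro r ⟨s, hs, es⟩
  refine mem_nullIdeal.2 ⟨sgnMat F ⊗ₖ s, ?_, ?_⟩
  · rintro ⟨a, a'⟩ ⟨c, c'⟩ hh
    simp only [Matrix.kroneckerMap_apply] at hh
    have h1 : a = c := by_contra fun e => hh (by simp [sgnMat, Matrix.diagonal_apply_ne _ e])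
    change F.pos a + K.pos a' = F.pos c + K.pos c' + 1
    rw [hs a' c' (right_ne_zero_of_mul hh), h1]
    omega
  · rw [tensor_mat]
    exact kron_homotopy_right _ _ _ s r es
      (sgnMat_anti F F.mat fun h g h0 => Or.inl (F.mat_pos h g h0)) (sgnMat_sq F)

/-- The Koszul matrix in terms of the inserted element. -/
theorem kosMat_insert {d : ℕ} (z : Fin d → B) {S : Finset (Fin d)} {a : Fin d} (ha : a ∉ S) :
    kosMat z (insert a S) S = kosSign S a • z a := by
  rw [kosMat, Matrix.of_apply]
  refine Finset.sum_eq_single a (fun b hb hne => ?_)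
    (fun h => absurd (Finset.mem_filter.2 ⟨Finset.mem_univ a, ha, rfl⟩) h)
  simp only [Finset.mem_filter, Finset.mem_univ, true_and] at hb
  exact absurd ((Finset.insert_inj ha).1 hb.2).symm hne

theorem exists_of_kosMat_ne_zero {d : ℕ} {z : Fin d → B} {U S : Finset (Fin d)}
    (h : kosMat z U S ≠ 0) : ∃ a, a ∉ S ∧ U = insert a S := by
  rw [kosMat, Matrix.of_apply] at h
  obtain ⟨a, ha, -⟩ := Finset.exists_ne_zero_of_sum_ne_zero h
  exact ⟨a, by simpa using ha⟩

theorem mem_nullIdeal_kos {d : ℕ} (z : Fin d → B) (i : Fin d) : z i ∈ nullIdeal (kosCx z) := by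
  classical
  let s : Matrix (Finset (Fin d)) (Finset (Fin d)) B := fun U S =>
    if i ∉ U ∧ S = insert i U then (kosSign U i : B) else 0
  refine mem_nullIdeal.2 ⟨s, fun (U S : Finset (Fin d)) hh => ?_, ?_⟩
  · have h : i ∉ U ∧ S = insert i U := by_contra fun h => hh (if_neg h)
    obtain ⟨hU, rfl⟩ := h
    have := Finset.card_insert_of_notMem hU
    have h2 := Finset.card_le_univ (insert i U)
    rw [Fintype.card_fin] at h2
    change d - U.card = d - (insert i U).card + 1
    omega
  · refine Matrix.ext fun (U S : Finset (Fin d)) => ?_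
    change ((kosMat z * s) + (s * kosMat z)) U S = (z i • (1 : Matrix (Finset (Fin d)) (Finset (Fin d)) B)) U S
    have h1 : (kosMat z * s) U S =
        if i ∈ S then kosMat z U (S.erase i) * (kosSign (S.erase i) i : B) else 0 := by
      rw [Matrix.mul_apply]
      by_cases hi : i ∈ S
      · rw [if_pos hi, Finset.sum_eq_single (S.erase i)]
        · simp [s, Finset.insert_erase hi]
        · intro V _ hV
          rw [show s V S = 0 from if_neg fun (h : i ∉ V ∧ S = insert i V) =>
            hV (by rw [h.2, Finset.erase_insert h.1]),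
            mul_zero]
        · simp
      · rw [if_neg hi]
        refine Finset.sum_eq_zero fun V _ => ?_
        rw [show s V S = 0 from if_neg fun (h : i ∉ V ∧ S = insert i V) => hi (h.2 ▸ Finset.mem_insert_self i V), mul_zero]
    have h2 : (s * kosMat z) U S =
        if i ∉ U then (kosSign U i : B) * kosMat z (insert i U) S else 0 := by
      rw [Matrix.mul_apply]
      by_cases hi : i ∈ U
      · rw [if_neg (not_not.2 hi)]
        exact Finset.sum_eq_zero fun V _ => by simp [s, hi]
      · rw [if_pos hi, Finset.sum_eq_single (insert i U)]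
        · simp [s, hi]
        · intro V _ hV; simp [s, hV]
        · simp
    have hsq : ∀ V : Finset (Fin d), (kosSign V i : B) * (kosSign V i : B) = 1 := fun V => by
      simp [kosSign, ← pow_add, ← two_mul, pow_mul]
    rw [Matrix.add_apply, h1, h2, Matrix.smul_apply, Matrix.one_apply]
    by_cases hUS : U = S
    · subst hUS
      by_cases hi : i ∈ U
      · rw [if_pos hi, if_neg (not_not.2 hi), if_pos rfl, add_zero, smul_eq_mul, mul_one]
        have := kosMat_insert z (Finset.notMem_erase i U)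
        rw [Finset.insert_erase hi] at this
        rw [this, zsmul_eq_mul, mul_comm _ (z i), mul_assoc, hsq, mul_one]
      · rw [if_neg hi, if_pos hi, if_pos rfl, zero_add, smul_eq_mul, mul_one, kosMat_insert z hi,
          zsmul_eq_mul, ← mul_assoc, hsq, one_mul]
    · rw [if_neg hUS, smul_zero]
      by_cases hcase : i ∈ S ∧ i ∉ U ∧ ∃ a, a ∉ S.erase i ∧ U = insert a (S.erase i)
      · obtain ⟨hiS, hiU, a, ha, rfl⟩ := hcase
        have hai : a ≠ i := fun e => hiU (e ▸ Finset.mem_insert_self a _)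
        have haS : a ∉ S := fun h => ha (Finset.mem_erase.2 ⟨hai, h⟩)
        rw [if_pos hiS, if_pos hiU, kosMat_insert z ha,
          show insert i (insert a (S.erase i)) = insert a S by
            rw [Finset.insert_comm, Finset.insert_erase hiS], kosMat_insert z haS]
        have hs := congrArg (fun t : ℤ => (t : B))
          (kosSign_swap (S.erase i) (Finset.notMem_erase i S) ha hai.symm)
        simp only [Finset.insert_erase hiS, Int.cast_add, Int.cast_mul, Int.cast_zero] at hs
        simp only [zsmul_eq_mul]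
        have q1 : ((kosSign S a : ℤ) : B) * (kosSign S a : B) = 1 := by
          simp [kosSign, ← pow_add, ← two_mul, pow_mul]
        have q2 : ((kosSign (S.erase i) a : ℤ) : B) * (kosSign (S.erase i) a : B) = 1 := by
          simp [kosSign, ← pow_add, ← two_mul, pow_mul]
        linear_combination (z a * kosSign (S.erase i) a * kosSign S a) * hs -
          (z a * kosSign (S.erase i) a * kosSign (S.erase i) i) * q1 -
          (z a * kosSign (insert a (S.erase i)) i * kosSign S a) * q2
      · have e1 : i ∈ S → kosMat z U (S.erase i) = 0 := fun hiS => by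
          by_contra hne
          obtain ⟨a, ha, rfl⟩ := exists_of_kosMat_ne_zero hne
          refine hcase ⟨hiS, fun hm => ?_, a, ha, rfl⟩
          rcases Finset.mem_insert.1 hm with h | h
          · subst h; exact hUS (Finset.insert_erase hiS)
          · exact Finset.notMem_erase _ _ h
        have e2 : i ∉ U → kosMat z (insert i U) S = 0 := fun hiU => by
          by_contra hne
          obtain ⟨a, ha, he⟩ := exists_of_kosMat_ne_zero hne
          by_cases hai : a = i
          · subst hai
            exact hUS (by rw [← Finset.erase_insert hiU, he, Finset.erase_insert ha])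
          · have hiS : i ∈ S := (Finset.mem_insert.1 (he ▸ Finset.mem_insert_self i U)).resolve_left
              (Ne.symm hai)
            refine hcase ⟨hiS, hiU, a, fun h => ha (Finset.mem_of_mem_erase h), ?_⟩
            rw [← Finset.erase_insert hiU, he, Finset.erase_insert_of_ne hai]
        split_ifs with a b <;> simp_all

section Param

variable {T : Type u} [CommRing T] [Algebra B T] (Φ : NC.Reso B T) {e : ℕ} (z : Fin e → B)

/-- The complex of the quotient and the elements. -/
abbrev par : FreeCx B := Φ.F.tensor (kosCx z)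

/-- The kernel of the algebra map. -/
abbrev kerI (B T : Type u) [CommRing B] [CommRing T] [Algebra B T] : Ideal B :=
  RingHom.ker (algebraMap B T)

/-- The ideal cutting out the quotient. -/
def parIdeal (T : Type u) [CommRing T] [Algebra B T] {e : ℕ} (z : Fin e → B) : Ideal B :=
  kerI B T ⊔ Ideal.span (Set.range z)

theorem parIdeal_le_nullIdeal : parIdeal T z ≤ nullIdeal (par Φ z) := by
  refine sup_le (fun r hr => nullIdeal_le_left _ _ ?_) (Ideal.span_le.2 ?_)
  · have h0 : r • (1 : T →ₗ[B] T) = 0 := LinearMap.ext fun t => by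
      change r • t = 0
      rw [Algebra.smul_def, show algebraMap B T r = 0 from hr, zero_mul]
    obtain ⟨ψ, hψ, hψ'⟩ := Φ.exists_null (r • 1) (h0 ▸ (Φ.isLift_one).smul r)
    exact mem_nullIdeal.2 ⟨ψ, hψ, hψ'.symm⟩
  · rintro _ ⟨i, rfl⟩
    exact nullIdeal_le_right _ _ (mem_nullIdeal_kos z i)

theorem par_lengthLE {s : ℕ} (h : Φ.F.LengthLE s) : (par Φ z).LengthLE (s + e) := fun q => by
  change Φ.F.pos q.1 + (e - q.2.card) ≤ s + e
  have := h q.1
  omega

variable (hT : Function.Surjective (algebraMap B T))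

/-- Lifts of the augmentation on basis vectors, supported in position zero. -/
def coefc (b : Φ.F.ι) : B := if Φ.F.pos b = 0 then Function.surjInv hT (Φ.gen b) else 0

theorem algebraMap_coefc (b : Φ.F.ι) : algebraMap B T (coefc Φ hT b) = Φ.gen b := by
  rw [coefc]
  split_ifs with h
  · exact Function.surjInv_eq hT _
  · rw [map_zero, Φ.gen_eq_zero h]

variable (M : Type u) [AddCommGroup M] [Module B M]

/-- The differential of the complex, on an explicit index type. -/
def dP : (Φ.F.ι × Finset (Fin e) → M) →ₗ[B] (Φ.F.ι × Finset (Fin e) → M) := (par Φ z).dA M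

theorem dP_apply (f : Φ.F.ι × Finset (Fin e) → M) (b : Φ.F.ι) (S : Finset (Fin e)) :
    dP Φ z M f (b, S) = ∑ g, Φ.F.mat b g • f (g, S) +
      ∑ S' : Finset (Fin e), (Φ.F.sgn b * kosMat z S S') • f (b, S') := by
  classical
  have key : ∀ q : Φ.F.ι × Finset (Fin e),
      ((if S = q.2 then Φ.F.mat b q.1 else 0) +
        (if b = q.1 then Φ.F.sgn b * kosMat z S q.2 else 0)) • f q =
      (if S = q.2 then Φ.F.mat b q.1 • f q else 0) +
        (if b = q.1 then (Φ.F.sgn b * kosMat z S q.2) • f q else 0) := fun q => by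
    rw [add_smul]
    split_ifs <;> simp
  have h : dP Φ z M f (b, S) = ∑ q : Φ.F.ι × Finset (Fin e),
      ((if S = q.2 then Φ.F.mat b q.1 else 0) +
        (if b = q.1 then Φ.F.sgn b * kosMat z S q.2 else 0)) • f q := rfl
  rw [h]
  simp only [key, Finset.sum_add_distrib]
  rw [Fintype.sum_prod_type, Fintype.sum_prod_type]
  simp [Finset.sum_ite_irrel]

/-- Chains in a position, on the explicit index type. -/
def degP (j : ℕ) : Submodule B (Φ.F.ι × Finset (Fin e) → M) where
  carrier := {f | ∀ b S, Φ.F.pos b + (e - S.card) ≠ j → f (b, S) = 0}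
  add_mem' hf hf' b S h := by simp [hf b S h, hf' b S h]
  zero_mem' b S h := rfl
  smul_mem' c f hf b S h := by simp [hf b S h]

theorem deg_eq_degP (j : ℕ) (f : Φ.F.ι × Finset (Fin e) → M) :
    f ∈ ((par Φ z).diff M B).deg (j : ℤ) ↔ f ∈ degP Φ M j := by
  constructor
  · intro h b S hne
    exact h (b, S) fun h0 => hne (Int.ofNat.inj h0)
  · rintro h ⟨b, S⟩ hne
    exact h b S fun h0 => hne (by exact_mod_cast h0)

/-- The component at a subset of the parameters, augmented. -/
def augAt (S : Finset (Fin e)) : (Φ.F.ι × Finset (Fin e) → M) →ₗ[B] M :=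
  ∑ b, coefc Φ hT b •
    LinearMap.proj (R := B) (φ := fun _ : Φ.F.ι × Finset (Fin e) => M) (b, S)

theorem augAt_apply (S : Finset (Fin e)) (f : Φ.F.ι × Finset (Fin e) → M) :
    augAt Φ hT M S f = ∑ b, coefc Φ hT b • f (b, S) := by
  simp [augAt]

/-- The coefficients of an augmented component of a boundary. -/
theorem augAt_dP_mem (S : Finset (Fin e)) (J : Ideal B) (hJ : kerI B T ≤ J)
    (hJz : ∀ a ∈ S, z a ∈ J) (f : Φ.F.ι × Finset (Fin e) → M) :
    augAt Φ hT M S (dP Φ z M f) ∈ J • (⊤ : Submodule B M) := by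
  rw [augAt_apply]
  simp only [dP_apply, smul_add, Finset.smul_sum, smul_smul, Finset.sum_add_distrib]
  refine add_mem ?_ (Submodule.sum_mem _ fun b _ => Submodule.sum_mem _ fun S' _ =>
    Submodule.smul_mem_smul (J.mul_mem_left _ (J.mul_mem_left _ ?_)) Submodule.mem_top)
  · rw [Finset.sum_comm]
    refine Submodule.sum_mem _ fun g _ => ?_
    rw [← Finset.sum_smul]
    refine Submodule.smul_mem_smul (hJ ?_) Submodule.mem_top
    rw [RingHom.mem_ker, map_sum, ← Φ.sum_gen_mat g]
    refine Finset.sum_congr rfl fun b _ => ?_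
    rw [map_mul, algebraMap_coefc, Algebra.smul_def, mul_comm]
  · by_contra h
    obtain ⟨a, ha, rfl⟩ := exists_of_kosMat_ne_zero (z := z) fun h0 => h (h0 ▸ J.zero_mem)
    refine h ?_
    rw [kosMat_insert z ha]
    exact zsmul_mem (hJz a (Finset.mem_insert_self a _)) _

theorem augAt_univ_dP_mem (f : Φ.F.ι × Finset (Fin e) → M) :
    augAt Φ hT M Finset.univ (dP Φ z M f) ∈ parIdeal T z • (⊤ : Submodule B M) :=
  augAt_dP_mem Φ z hT M _ (parIdeal T z) le_sup_left
    (fun a _ => Submodule.mem_sup_right (Ideal.subset_span ⟨a, rfl⟩)) f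

/-- A vector of the resolution at a subset of the parameters, with a value in the module. -/
def emb (S₀ : Finset (Fin e)) (u : Φ.F.ι → B) : M →ₗ[B] (Φ.F.ι × Finset (Fin e) → M) where
  toFun m q := if q.2 = S₀ then u q.1 • m else 0
  map_add' m m' := by funext q; simp only [Pi.add_apply]; split_ifs <;> simp
  map_smul' c m := by
    funext q; simp only [Pi.smul_apply, RingHom.id_apply]; split_ifs <;> simp [smul_comm c]

theorem emb_apply (S₀ : Finset (Fin e)) (u : Φ.F.ι → B) (m : M) (b : Φ.F.ι) (S : Finset (Fin e)) :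
    emb Φ M S₀ u m (b, S) = if S = S₀ then u b • m else 0 := rfl

theorem emb_sub (S₀ : Finset (Fin e)) (u u' : Φ.F.ι → B) (m : M) :
    emb Φ M S₀ (u - u') m = emb Φ M S₀ u m - emb Φ M S₀ u' m := by
  funext ⟨b, S⟩
  simp only [emb_apply, Pi.sub_apply]
  split_ifs <;> simp [sub_smul]

theorem emb_smul (S₀ : Finset (Fin e)) (c : B) (u : Φ.F.ι → B) (m : M) :
    emb Φ M S₀ (c • u) m = c • emb Φ M S₀ u m := by
  funext ⟨b, S⟩
  simp only [emb_apply, Pi.smul_apply, smul_eq_mul]
  split_ifs <;> simp [smul_smul]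

theorem emb_mem_degP (S₀ : Finset (Fin e)) (u : Φ.F.ι → B) (m : M) (j : ℕ)
    (hu : ∀ b, Φ.F.pos b + (e - S₀.card) ≠ j → u b = 0) : emb Φ M S₀ u m ∈ degP Φ M j := by
  intro b S hne
  rw [emb_apply]
  split_ifs with h
  · rw [hu b (by rwa [← h]), zero_smul]
  · rfl

theorem dP_emb (S₀ : Finset (Fin e)) (u : Φ.F.ι → B) (m : M) (b : Φ.F.ι) (S : Finset (Fin e)) :
    dP Φ z M (emb Φ M S₀ u m) (b, S) =
      (if S = S₀ then Φ.F.dA B u b • m else 0) + (Φ.F.sgn b * kosMat z S S₀ * u b) • m := by
  rw [dP_apply]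
  congr 1
  · split_ifs with h
    · simp [emb_apply, h, FreeCx.dA_apply, Finset.sum_smul, smul_smul]
    · simp [emb_apply, h]
  · simp [emb_apply, smul_smul]

theorem dA_eq_zero_of_pos_zero {u : Φ.F.ι → B} (hu : ∀ b, Φ.F.pos b ≠ 0 → u b = 0) :
    Φ.F.dA B u = 0 := by
  funext h
  rw [FreeCx.dA_apply]
  refine Finset.sum_eq_zero fun g _ => ?_
  by_cases hm : Φ.F.mat h g = 0
  · simp [hm]
  · rw [hu g (by have := Φ.F.mat_pos h g hm; omega), smul_zero]

/-- The boundaries of chains in position one. -/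
def bd0 : Submodule B (Φ.F.ι × Finset (Fin e) → M) := (degP Φ M 1).map (dP Φ z M)

theorem kosMat_univ (S : Finset (Fin e)) : kosMat z S Finset.univ = 0 := by
  by_contra h
  obtain ⟨a, ha, -⟩ := exists_of_kosMat_ne_zero h
  exact ha (Finset.mem_univ a)

theorem emb_mem_bd0 (v : Φ.F.ι → B) (hv : ∀ b, Φ.F.pos b ≠ 0 → v b = 0) (hε : Φ.ε v = 0) (m : M) :
    emb Φ M Finset.univ v m ∈ bd0 Φ z M := by
  obtain ⟨w, hw⟩ := Φ.exact v (dA_eq_zero_of_pos_zero Φ hv) hε
  refine ⟨emb Φ M Finset.univ (Φ.F.posProj B 1 w) m, emb_mem_degP Φ M _ _ _ _ fun b hb => ?_, ?_⟩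
  · rw [FreeCx.posProj_apply, if_neg]
    rw [Finset.card_univ, Fintype.card_fin, Nat.sub_self, add_zero] at hb
    exact_mod_cast hb
  · funext ⟨b, S⟩
    rw [dP_emb, kosMat_univ, mul_zero, zero_mul, zero_smul, add_zero, emb_apply]
    congr 2
    rw [show (1 : ℤ) = 0 + 1 from rfl, Φ.F.dA_posProj B 0, hw, FreeCx.posProj_apply]
    split_ifs with h
    · rfl
    · exact (hv b (by exact_mod_cast h)).symm

include hT in
/-- In position zero a chain with augmentation in the ideal is a boundary. -/
theorem exists_dP_eq (f : Φ.F.ι × Finset (Fin e) → M) (hf : f ∈ degP Φ M 0)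
    (haug : augAt Φ hT M Finset.univ f ∈ parIdeal T z • (⊤ : Submodule B M)) :
    ∃ v ∈ degP Φ M 1, dP Φ z M v = f := by
  classical
  obtain ⟨w, hw⟩ := Φ.surj 1
  let u₀ := Φ.F.posProj B 0 w
  have hu₀ : ∀ b, Φ.F.pos b ≠ 0 → u₀ b = 0 := fun b hb => by
    simp [u₀, FreeCx.posProj_apply, hb]
  have hεu₀ : Φ.ε u₀ = 1 := by rw [Φ.ε_posProj_zero, hw]
  -- multiples by the ideal
  have hJr : ∀ n, ∀ r ∈ parIdeal T z, r • emb Φ M Finset.univ u₀ n ∈ bd0 Φ z M := by
    intro n
    have hle : parIdeal T z ≤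
        (bd0 Φ z M).comap ((LinearMap.id : B →ₗ[B] B).smulRight (emb Φ M Finset.univ u₀ n)) := by
      refine sup_le (fun r hr => ?_) (Ideal.span_le.2 ?_)
      · rw [Submodule.mem_comap, LinearMap.smulRight_apply, LinearMap.id_apply, ← emb_smul]
        refine emb_mem_bd0 Φ z M _ (fun b hb => by simp [hu₀ b hb]) ?_ n
        rw [map_smul, hεu₀, Algebra.smul_def, show algebraMap B T r = 0 from hr, zero_mul]
      · rintro _ ⟨i, rfl⟩
        rw [SetLike.mem_coe, Submodule.mem_comap, LinearMap.smulRight_apply, LinearMap.id_apply]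
        have hins : insert i (Finset.univ.erase i) = (Finset.univ : Finset (Fin e)) :=
          Finset.insert_erase (Finset.mem_univ i)
        set σ : B := (kosSign (Finset.univ.erase i) i : B) with hσ
        have hs1 : σ * σ = 1 := by simp [hσ, kosSign, ← pow_add, ← two_mul, pow_mul]
        refine ⟨emb Φ M (Finset.univ.erase i) (σ • u₀) n,
          emb_mem_degP Φ M _ _ _ _ fun b hb => ?_, ?_⟩
        · rw [Pi.smul_apply, hu₀ b, smul_zero]
          intro h0
          apply hb
          rw [h0, Finset.card_erase_of_mem (Finset.mem_univ i), Finset.card_univ, Fintype.card_fin]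
          have : 0 < e := i.pos
          omega
        · funext ⟨b, S⟩
          rw [dP_emb, Pi.smul_apply (z i) (emb Φ M Finset.univ u₀ n) (b, S), emb_apply,
            dA_eq_zero_of_pos_zero Φ (fun b hb => by simp [hu₀ b hb])]
          simp only [Pi.zero_apply, zero_smul, ite_self, zero_add, Pi.smul_apply, smul_eq_mul]
          by_cases h : S = Finset.univ
          · have hk := kosMat_insert z (S := Finset.univ.erase i) (Finset.notMem_erase i _)
            rw [hins] at hk
            rw [if_pos h, h, hk, zsmul_eq_mul, ← hσ, smul_smul]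
            congr 1
            by_cases hp : Φ.F.pos b = 0
            · simp only [FreeCx.sgn, hp, pow_zero, one_mul]
              linear_combination (z i * u₀ b) * hs1
            · rw [hu₀ _ hp]; ring
          · have h0 : kosMat z S (Finset.univ.erase i) = 0 := by
              by_contra hne
              obtain ⟨a, ha, he⟩ := exists_of_kosMat_ne_zero hne
              have : a = i :=
                by_contra fun hne' => ha (Finset.mem_erase.2 ⟨hne', Finset.mem_univ a⟩)
              exact h (by rw [he, this, hins])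
            rw [if_neg h, h0, mul_zero, zero_mul, zero_smul, smul_zero]
    exact fun r hr => hle hr
  have hJ : ∀ m ∈ parIdeal T z • (⊤ : Submodule B M), emb Φ M Finset.univ u₀ m ∈ bd0 Φ z M := by
    intro m hm
    refine Submodule.smul_induction_on hm (fun r hr n _ => ?_) (fun a b ha hb => ?_)
    · rw [map_smul]; exact hJr n r hr
    · rw [map_add]; exact add_mem ha hb
  have hkey : f - emb Φ M Finset.univ u₀ (augAt Φ hT M Finset.univ f) ∈ bd0 Φ z M := by
    have e2 : f = ∑ b, emb Φ M Finset.univ (if Φ.F.pos b = 0 then Pi.single b 1 else 0)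
        (f (b, Finset.univ)) := by
      funext ⟨b₁, S⟩
      rw [Finset.sum_apply]
      simp only [emb_apply]
      by_cases h : S = Finset.univ ∧ Φ.F.pos b₁ = 0
      · rw [Finset.sum_eq_single b₁ (fun b _ hb => ?_) (by simp)]
        · rw [if_pos h.1, if_pos h.2, Pi.single_eq_same, one_smul, ← h.1]
        · rw [if_pos h.1]
          split_ifs
          · rw [Pi.single_eq_of_ne (Ne.symm hb), zero_smul]
          · simp
      · rw [Finset.sum_eq_zero fun b _ => ?_, hf b₁ S ?_]
        · intro h0
          refine h ⟨Finset.eq_univ_of_card _ ?_, by omega⟩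
          have := Finset.card_le_univ S
          rw [Fintype.card_fin] at this ⊢
          omega
        · split_ifs with h1 h2
          · have hne : b₁ ≠ b := fun e => h ⟨h1, e ▸ h2⟩
            rw [Pi.single_eq_of_ne hne, zero_smul]
          · simp
          · rfl
    have e3 : emb Φ M Finset.univ u₀ (augAt Φ hT M Finset.univ f) =
        ∑ b, emb Φ M (Finset.univ : Finset (Fin e)) (coefc Φ hT b • u₀) (f (b, Finset.univ)) := by
      rw [augAt_apply, map_sum]
      exact Finset.sum_congr rfl fun b _ => by rw [map_smul, emb_smul]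
    rw [e3]
    nth_rewrite 1 [e2]
    rw [← Finset.sum_sub_distrib]
    refine Submodule.sum_mem _ fun b _ => ?_
    rw [← emb_sub]
    refine emb_mem_bd0 Φ z M _ (fun b' hb' => ?_) ?_ _
    · rw [Pi.sub_apply, Pi.smul_apply, hu₀ b' hb', smul_zero, sub_zero]
      split_ifs with h
      · exact Pi.single_eq_of_ne (fun e => hb' (by rw [e]; exact h)) _
      · rfl
    · rw [map_sub, map_smul, hεu₀, Algebra.smul_def, mul_one, algebraMap_coefc]
      split_ifs with h
      · exact sub_self _
      · rw [map_zero, Φ.gen_eq_zero h, sub_zero]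
  have := add_mem hkey (hJ _ haug)
  rw [sub_add_cancel] at this
  obtain ⟨v, hv, hv'⟩ := this
  exact ⟨v, hv, hv'⟩

end Param

end Vale.Agent.P202.Mixed.MainG
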