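import Vale.Agent.P202.Mixed.Main.Len
import Vale.Agent.P202.Mixed.Defs
import Vale.Agent.P202.HomAlg.Pair
import Vale.Agent.P202.HomAlg.Coef
import Vale.Agent.P202.HomAlg.Homotopy

/-!
# P202 mixed characteristic, block G: images in first homology

The length of the image of a coefficient map on the first homology of a fixed complex.
-/

noncomputable section

namespace Vale.Agent.P202.Mixed.MainG

universe u

variable {B : Type u} [CommRing B] (G : FreeCx B)

variable {N N₁ N₂ : Type u} [AddCommGroup N] [Module B N] [AddCommGroup N₁] [Module B N₁]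
  [AddCommGroup N₂] [Module B N₂]

/-- Cycles in position one, sent to chains modulo boundaries by a coefficient map. -/
def imMap (f : N →ₗ[B] N₁) :
    (G.diff N B).cycles ⊤ ⊥ 1 →ₗ[B] (G.ι → N₁) ⧸ (G.diff N₁ B).bdries ⊤ ⊥ 1 :=
  ((G.diff N₁ B).bdries ⊤ ⊥ 1).mkQ.comp
    ((G.coef B f).comp ((G.diff N B).cycles ⊤ ⊥ 1).subtype)

/-- The length of the image in first homology. -/
def imLen (f : N →ₗ[B] N₁) : ℕ∞ := Module.length B (LinearMap.range (imMap G f))

theorem coef_mem_cycles (f : N →ₗ[B] N₁) {j : ℤ} {a : G.ι → N}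
    (ha : a ∈ (G.diff N B).cycles ⊤ ⊥ j) : G.coef B f a ∈ (G.diff N₁ B).cycles ⊤ ⊥ j := by
  obtain ⟨-, h2, h3⟩ := (Diff.mem_cycles _).1 ha
  rw [Submodule.mem_bot] at h3
  exact (Diff.mem_cycles _).2 ⟨trivial, G.coef_deg B f j a h2, by
    rw [← G.coef_d B f, h3, map_zero, Submodule.mem_bot]⟩

theorem coef_mem_bdries (f : N →ₗ[B] N₁) {j : ℤ} {a : G.ι → N}
    (ha : a ∈ (G.diff N B).bdries ⊤ ⊥ j) : G.coef B f a ∈ (G.diff N₁ B).bdries ⊤ ⊥ j := by
  obtain ⟨w, ⟨-, hw⟩, y, ⟨hy, -⟩, e⟩ := (Diff.mem_bdries _).1 ha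
  rw [Submodule.mem_bot] at hy
  refine (Diff.mem_bdries _).2 ⟨G.coef B f w, ⟨trivial, G.coef_deg B f _ w hw⟩, 0,
    ⟨zero_mem _, zero_mem _⟩, ?_⟩
  rw [← e, hy, map_add, map_zero, G.coef_d]

theorem coef_comp (g : N₁ →ₗ[B] N₂) (f : N →ₗ[B] N₁) :
    G.coef B (g.comp f) = (G.coef B g).comp (G.coef B f) := rfl

/-- Composition on the left does not increase the image. -/
theorem imLen_comp_le (g : N₁ →ₗ[B] N₂) (f : N →ₗ[B] N₁) : imLen G (g.comp f) ≤ imLen G f := by
  have : imMap G (g.comp f) = (Submodule.mapQ _ _ (G.coef B g)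
      fun _ ha => Submodule.mem_comap.2 (coef_mem_bdries (j := 1) G g ha)).comp (imMap G f) := LinearMap.ext fun _ => rfl
  rw [imLen, this]
  exact length_range_comp_le _ _

/-- Composition on the right does not increase the image. -/
theorem imLen_comp_le' (g : N₁ →ₗ[B] N₂) (f : N →ₗ[B] N₁) : imLen G (g.comp f) ≤ imLen G g := by
  have : imMap G (g.comp f) = (imMap G g).comp (LinearMap.codRestrict _
      ((G.coef B f).comp ((G.diff N B).cycles ⊤ ⊥ 1).subtype)
        fun a => coef_mem_cycles G f a.2) := LinearMap.ext fun _ => rfl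
  rw [imLen, this]
  exact length_range_comp_le' _ _

/-- Composition with an exact sequence in the middle. -/
theorem imLen_exact {K P : Type u} [AddCommGroup K] [Module B K] [AddCommGroup P] [Module B P]
    (ι : K →ₗ[B] N₁) (q : N₁ →ₗ[B] P) (hι : Function.Injective ι) (hq : Function.Surjective q)
    (hex : ∀ a, q a = 0 → ∃ b, ι b = a)
    (g : N₁ →ₗ[B] N₂) (f : N →ₗ[B] N₁) :
    imLen G (g.comp f) ≤ imLen G (q.comp f) + imLen G (g.comp ι) := by
  refine (length_range_le_add (imMap G (q.comp f)) (imMap G (g.comp f))).trans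
    (add_le_add le_rfl (length_le_of_le ?_))
  rintro _ ⟨a, ha, rfl⟩
  rw [SetLike.mem_coe, LinearMap.mem_ker] at ha
  have ha' : G.coef B (q.comp f) (a : G.ι → N) ∈ (G.diff P B).bdries ⊤ ⊥ 1 :=
    (Submodule.Quotient.mk_eq_zero _).1 ha
  obtain ⟨v, ⟨-, hv⟩, y, ⟨hy, -⟩, e⟩ := (Diff.mem_bdries _).1 ha'
  rw [Submodule.mem_bot] at hy
  rw [hy, add_zero] at e
  obtain ⟨-, had, hac⟩ := (Diff.mem_cycles _).1 a.2
  rw [Submodule.mem_bot] at hac
  let v' : G.ι → N₁ := G.posProj N₁ (1 + 1) fun b => Function.surjInv hq (v b)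
  have hv' : v' ∈ (G.diff N₁ B).deg (1 + 1) := FreeCx.posProj_mem_deg _ _
  have hqv : G.coef B q v' = v := by
    funext b
    simp only [v', FreeCx.coef_apply, FreeCx.posProj_apply]
    split_ifs with hb
    · exact Function.surjInv_eq hq _
    · rw [map_zero, hv b hb]
  set r := G.coef B f (a : G.ι → N) - (G.diff N₁ B).d v' with hr
  have hrq : ∀ b, q (r b) = 0 := fun b => by
    have h2 : G.coef B q r = 0 := by
      rw [hr, map_sub, G.coef_d, hqv, e, coef_comp, LinearMap.comp_apply, sub_self]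
    exact congrFun h2 b
  have hrdeg : r ∈ (G.diff N₁ B).deg 1 := by
    refine sub_mem (G.coef_deg B f 1 _ had) ?_
    have := (G.diff N₁ B).d_deg _ _ hv'
    rwa [add_sub_cancel_right] at this
  choose ζ hζ using fun b => hex (r b) (hrq b)
  have hζr : G.coef B ι ζ = r := funext hζ
  have hζc : ζ ∈ (G.diff K B).cycles ⊤ ⊥ 1 := by
    refine (Diff.mem_cycles _).2 ⟨trivial, fun b hb => hι ?_, ?_⟩
    · rw [map_zero, hζ, hrdeg b hb]
    · rw [Submodule.mem_bot]
      funext b
      refine hι ?_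
      have h2 : G.coef B ι ((G.diff K B).d ζ) = 0 := by
        rw [G.coef_d, hζr, hr, map_sub, (G.diff N₁ B).d_d, ← G.coef_d, hac, map_zero, sub_zero]
      rw [Pi.zero_apply, map_zero]
      exact congrFun h2 b
  refine ⟨⟨ζ, hζc⟩, ?_⟩
  change Submodule.Quotient.mk _ = Submodule.Quotient.mk _
  rw [Submodule.Quotient.eq]
  change G.coef B (g.comp ι) ζ - G.coef B (g.comp f) (a : G.ι → N) ∈ _
  rw [coef_comp, coef_comp, LinearMap.comp_apply, LinearMap.comp_apply, hζr, hr, map_sub,
    sub_sub_cancel_left]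
  refine neg_mem (coef_mem_bdries G g ?_)
  exact (Diff.mem_bdries _).2 ⟨v', ⟨trivial, hv'⟩, 0, ⟨zero_mem _, zero_mem _⟩, add_zero _⟩

/-- An endomorphism with small kernel and cokernel can be inserted. -/
theorem imLen_endo (g : N →ₗ[B] N₁) (op : N →ₗ[B] N) :
    imLen G g ≤ imLen G (g.comp op) +
      ((Fintype.card G.ι : ℕ) : ℕ∞) *
        (Module.length B (N ⧸ LinearMap.range op) + Module.length B (LinearMap.ker op)) := by
  set Z := (G.diff N B).cycles ⊤ ⊥ 1
  let opZ : Z →ₗ[B] Z := LinearMap.codRestrict _ ((G.coef B op).comp Z.subtype)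
    fun a => coef_mem_cycles G op a.2
  have hg : ∀ a, imMap G g (opZ a) = imMap G (g.comp op) a := fun a => rfl
  refine (length_range_le_quot_add (imMap G g) (LinearMap.range opZ)).trans ?_
  rw [add_comm]
  refine add_le_add (le_of_eq ?_) ?_
  · rw [← LinearMap.range_comp]
    exact congrArg (fun S : Submodule B _ => Module.length B S)
      (congrArg LinearMap.range (LinearMap.ext hg : (imMap G g).comp opZ = imMap G (g.comp op)))
  -- classes of cycles in the image of the endomorphism
  let Tp : Submodule B Z := (LinearMap.range (G.coef B op)).comap Z.subtype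
  refine (length_quot_le_map (LinearMap.range opZ) Tp).trans ?_
  rw [mul_add]
  refine add_le_add ?_ ?_
  · let c : Z →ₗ[B] (G.ι → N ⧸ LinearMap.range op) :=
      (G.coef B (LinearMap.range op).mkQ).comp Z.subtype
    have hc : LinearMap.ker c ≤ LinearMap.range opZ ⊔ Tp := by
      refine le_trans (fun a ha => ?_) le_sup_right
      have h2 : ∀ b, (a : G.ι → N) b ∈ LinearMap.range op := fun b =>
        (Submodule.Quotient.mk_eq_zero _).1 (congrFun (LinearMap.mem_ker.1 ha) b)
      choose η hη using h2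
      exact ⟨η, funext hη⟩
    refine (length_quot_le_of_le hc).trans ?_
    rw [c.quotKerEquivRange.length_eq]
    refine (Module.length_le_of_injective _ (Submodule.subtype_injective _)).trans (le_of_eq ?_)
    simp
  · -- preimages of cycles in position one
    let U : Submodule B (G.ι → N) := (G.diff N B).deg 1 ⊓
      (LinearMap.ker ((G.diff N B).d.comp (G.coef B op)))
    let ψ : U →ₗ[B] (G.ι → LinearMap.ker op) := LinearMap.pi fun b =>
      LinearMap.codRestrict (LinearMap.ker op)
        ((LinearMap.proj b).comp ((G.diff N B).d.comp U.subtype)) fun a => by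
          have h2 : (G.diff N B).d (G.coef B op (a : G.ι → N)) = 0 := a.2.2
          rw [← G.coef_d] at h2
          exact congrFun h2 b
    let χ : U →ₗ[B] Z ⧸ LinearMap.range opZ := (LinearMap.range opZ).mkQ.comp
      (LinearMap.codRestrict Z ((G.coef B op).comp U.subtype) fun a =>
        (Diff.mem_cycles _).2 ⟨trivial, G.coef_deg B op 1 _ a.2.1, (Submodule.mem_bot B).2 a.2.2⟩)
    have hTp : Tp.map (LinearMap.range opZ).mkQ ≤ LinearMap.range χ := by
      rintro _ ⟨a, ⟨η, hη⟩, rfl⟩
      have hη' : G.coef B op (G.posProj N 1 η) = (a : G.ι → N) := by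
        funext b
        rw [FreeCx.coef_apply, FreeCx.posProj_apply]
        split_ifs with hb
        · exact congrFun hη b
        · rw [map_zero]; exact (((Diff.mem_cycles _).1 a.2).2.1 b hb).symm
      refine ⟨⟨G.posProj N 1 η, FreeCx.posProj_mem_deg _ _, ?_⟩, ?_⟩
      · change (G.diff N B).d (G.coef B op (G.posProj N 1 η)) = 0
        rw [hη']
        exact (Submodule.mem_bot B).1 ((Diff.mem_cycles _).1 a.2).2.2
      · exact congrArg Submodule.Quotient.mk (Subtype.ext hη')
    refine (length_le_of_le hTp).trans ((length_range_le_add ψ χ).trans ?_)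
    have h0 : (LinearMap.ker ψ).map χ = ⊥ := by
      rw [eq_bot_iff]
      rintro _ ⟨a, ha, rfl⟩
      rw [Submodule.mem_bot]
      refine (Submodule.Quotient.mk_eq_zero _).2 ⟨⟨a.1, (Diff.mem_cycles _).2 ⟨trivial, a.2.1, ?_⟩⟩,
        Subtype.ext rfl⟩
      rw [Submodule.mem_bot]
      funext b
      exact congrArg Subtype.val (congrFun (LinearMap.mem_ker.1 ha) b)
    rw [h0, Module.length_bot, add_zero]
    refine (Module.length_le_of_injective _ (Submodule.subtype_injective _)).trans (le_of_eq ?_)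
    simp

end Vale.Agent.P202.Mixed.MainG
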