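import Mathlib

/-!
# P202 mixed characteristic, block G: lengths of modules

Elementary facts on lengths of images, quotients and endomorphisms.
-/

noncomputable section

namespace Vale.Agent.P202.Mixed.MainG

variable {B : Type*} [CommRing B]

section basic

variable {V P R : Type*} [AddCommGroup V] [Module B V] [AddCommGroup P] [Module B P]
  [AddCommGroup R] [Module B R]

/-- A submodule and its quotient. -/
theorem length_submodule_add (S : Submodule B V) :
    Module.length B V = Module.length B S + Module.length B (V ⧸ S) :=
  Module.length_eq_add_of_exact S.subtype S.mkQ (Submodule.subtype_injective _)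
    (Submodule.mkQ_surjective _) (LinearMap.exact_subtype_mkQ S)

/-- Kernel and range. -/
theorem length_ker_add_range (f : V →ₗ[B] P) :
    Module.length B V = Module.length B (LinearMap.ker f) + Module.length B (LinearMap.range f) := by
  rw [length_submodule_add (LinearMap.ker f), f.quotKerEquivRange.length_eq]

/-- The range of a composite is at most the range of the first map. -/
theorem length_range_comp_le (g : P →ₗ[B] R) (f : V →ₗ[B] P) :
    Module.length B (LinearMap.range (g.comp f)) ≤ Module.length B (LinearMap.range f) := by
  refine Module.length_le_of_surjective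
    (LinearMap.codRestrict _ (g.comp (LinearMap.range f).subtype) ?_) ?_
  · rintro ⟨_, v, rfl⟩; exact ⟨v, rfl⟩
  · rintro ⟨_, v, rfl⟩; exact ⟨⟨f v, v, rfl⟩, rfl⟩

/-- The range of a composite is at most the range of the second map. -/
theorem length_range_comp_le' (g : P →ₗ[B] R) (f : V →ₗ[B] P) :
    Module.length B (LinearMap.range (g.comp f)) ≤ Module.length B (LinearMap.range g) :=
  Module.length_le_of_injective (Submodule.inclusion (LinearMap.range_comp_le_range f g))
    (Submodule.inclusion_injective _)

theorem length_map_le (g : V →ₗ[B] P) (S : Submodule B V) :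
    Module.length B (S.map g) ≤ Module.length B S :=
  Module.length_le_of_surjective (g.submoduleMap S) (g.submoduleMap_surjective S)

theorem length_le_of_le {S T : Submodule B V} (h : S ≤ T) :
    Module.length B S ≤ Module.length B T :=
  Module.length_le_of_injective (Submodule.inclusion h) (Submodule.inclusion_injective _)

theorem length_quot_le_of_le {S T : Submodule B V} (h : S ≤ T) :
    Module.length B (V ⧸ T) ≤ Module.length B (V ⧸ S) :=
  Module.length_le_of_surjective (Submodule.factor h) (Submodule.factor_surjective h)

/-- A map whose behaviour on the kernel of another is controlled. -/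
theorem length_range_le_add (f : V →ₗ[B] P) (g : V →ₗ[B] R) :
    Module.length B (LinearMap.range g) ≤
      Module.length B (LinearMap.range f) + Module.length B ((LinearMap.ker f).map g) := by
  set R' := (LinearMap.ker f).map g with hR'
  rw [length_submodule_add (R'.comap (LinearMap.range g).subtype), add_comm]
  gcongr
  · rw [← f.quotKerEquivRange.length_eq]
    refine Module.length_le_of_surjective
      (Submodule.mapQ _ (R'.comap (LinearMap.range g).subtype) g.rangeRestrict
        fun v hv => (⟨v, hv, rfl⟩ : g v ∈ R')) fun x => ?_
    obtain ⟨⟨_, v, rfl⟩, rfl⟩ := Submodule.Quotient.mk_surjective _ x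
    exact ⟨Submodule.Quotient.mk v, rfl⟩
  · exact Module.length_le_of_injective
      (LinearMap.codRestrict R' ((LinearMap.range g).subtype.comp (R'.comap _).subtype)
        fun x => x.2)
      (fun x y h => Subtype.ext (Subtype.ext (congrArg (fun z : R' => (z : R)) h)))

/-- Splitting the length of a map of a module at a submodule. -/
theorem length_range_le_quot_add (g : V →ₗ[B] P) (S : Submodule B V) :
    Module.length B (LinearMap.range g) ≤ Module.length B (V ⧸ S) + Module.length B (S.map g) := by
  refine (length_range_le_add S.mkQ g).trans ?_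
  rw [Submodule.ker_mkQ]
  gcongr
  exact Module.length_le_of_injective (LinearMap.range S.mkQ).subtype (Submodule.subtype_injective _)

/-- A module is its image in a quotient plus the image of the submodule. -/
theorem length_quot_le_map (S T : Submodule B V) :
    Module.length B (V ⧸ S) ≤
      Module.length B (V ⧸ (S ⊔ T)) + Module.length B (T.map S.mkQ) := by
  have hT : (S ⊔ T).map S.mkQ = T.map S.mkQ := by
    rw [Submodule.map_sup, Submodule.mkQ_map_self, bot_sup_eq]
  rw [length_submodule_add ((S ⊔ T).map S.mkQ),
    (Submodule.quotientQuotientEquivQuotient S (S ⊔ T) le_sup_left).length_eq, hT, add_comm]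

end basic

/-- Kernel and cokernel of an endomorphism of a module of finite length. -/
theorem length_ker_eq_coker {V : Type*} [AddCommGroup V] [Module B V] (f : V →ₗ[B] V)
    (h : Module.length B V ≠ ⊤) :
    Module.length B (LinearMap.ker f) = Module.length B (V ⧸ LinearMap.range f) := by
  have h1 := length_ker_add_range f
  rw [length_submodule_add (LinearMap.range f)] at h1 h
  rw [add_comm (Module.length B (LinearMap.ker f))] at h1
  exact ((ENat.addLECancellable_of_ne_top (ne_top_of_le_ne_top h le_self_add)).inj.1 h1).symm

/-- The same for a finite module over a Noetherian ring, as an inequality. -/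
theorem length_ker_le_coker [IsNoetherianRing B] {V : Type*} [AddCommGroup V] [Module B V]
    [Module.Finite B V] (f : V →ₗ[B] V) (h : Module.length B (V ⧸ LinearMap.range f) ≠ ⊤) :
    Module.length B (LinearMap.ker f) ≤ Module.length B (V ⧸ LinearMap.range f) := by
  have hV : IsNoetherian B V := isNoetherian_of_isNoetherianRing_of_finite B V
  obtain ⟨m, hm⟩ := monotone_stabilizes_iff_noetherian.2 hV f.iterateKer
  -- the finite length part on which the kernel lives
  let N₀ : Submodule B V := LinearMap.ker (f ^ (m + 1))
  have hmap : ∀ v ∈ N₀, f v ∈ N₀ := fun v hv => by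
    change (f ^ (m + 1)) (f v) = 0
    rw [← Module.End.mul_apply, ← (Commute.self_pow f (m + 1)).eq, Module.End.mul_apply,
      show (f ^ (m + 1)) v = 0 from hv, map_zero]
  have hcoker : ∀ k : ℕ, Module.length B (V ⧸ LinearMap.range (f ^ k)) ≠ ⊤ := by
    intro k
    induction k with
    | zero =>
      have : Subsingleton (V ⧸ LinearMap.range (f ^ 0)) :=
        Submodule.Quotient.subsingleton_iff.2 (LinearMap.range_eq_top.2 fun v => ⟨v, rfl⟩)
      simp [Module.length_eq_zero]
    | succ k ih =>
      refine ne_top_of_le_ne_top (WithTop.add_ne_top.2 ⟨h, ih⟩) ?_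
      rw [length_submodule_add ((LinearMap.range f).map (LinearMap.range (f ^ (k + 1))).mkQ),
        add_comm (Module.length B ↥((LinearMap.range f).map _))]
      refine add_le_add ?_ ?_
      · exact le_of_eq (Submodule.quotientQuotientEquivQuotient _ _ (by
          rw [pow_succ']; exact LinearMap.range_comp_le_range _ _)).length_eq
      · let φ : V →ₗ[B] V ⧸ LinearMap.range (f ^ (k + 1)) :=
          (LinearMap.range (f ^ (k + 1))).mkQ.comp f
        rw [show (LinearMap.range f).map (LinearMap.range (f ^ (k + 1))).mkQ = LinearMap.range φ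
          from (LinearMap.range_comp _ _).symm, ← φ.quotKerEquivRange.length_eq]
        refine length_quot_le_of_le ?_
        rintro _ ⟨v, rfl⟩
        change Submodule.Quotient.mk (f ((f ^ k) v)) = (0 : V ⧸ LinearMap.range (f ^ (k + 1)))
        rw [Submodule.Quotient.mk_eq_zero, pow_succ']
        exact ⟨v, rfl⟩
  have hfin : Module.length B N₀ ≠ ⊤ := by
    refine ne_top_of_le_ne_top (hcoker (m + 1))
      (Module.length_le_of_injective ((LinearMap.range (f ^ (m + 1))).mkQ.comp N₀.subtype) ?_)
    refine LinearMap.ker_eq_bot.1 ((LinearMap.ker _).eq_bot_iff.2 fun v hv => ?_)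
    rw [LinearMap.mem_ker, LinearMap.comp_apply, Submodule.mkQ_apply,
      Submodule.Quotient.mk_eq_zero] at hv
    obtain ⟨w, hw⟩ := hv
    have e1 : (f ^ (m + 1 + (m + 1))) w = 0 := by
      rw [pow_add, Module.End.mul_apply, hw]; exact v.2
    have h2 : LinearMap.ker (f ^ (m + 1)) = LinearMap.ker (f ^ (m + 1 + (m + 1))) :=
      ((hm (m + 1) (by omega)).symm.trans (hm _ (by omega)) : _)
    have h3 : w ∈ LinearMap.ker (f ^ (m + 1 + (m + 1))) := e1
    rw [← h2] at h3
    exact Subtype.ext (hw.symm.trans h3)
  have e := length_ker_eq_coker (f.restrict hmap) hfin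
  calc Module.length B (LinearMap.ker f) ≤ Module.length B (LinearMap.ker (f.restrict hmap)) := by
        refine Module.length_le_of_injective
          (LinearMap.codRestrict _ (LinearMap.codRestrict N₀ (LinearMap.ker f).subtype fun v => ?_)
            fun v => ?_) fun x y hxy => ?_
        · change (f ^ (m + 1)) (v : V) = 0
          rw [pow_succ, Module.End.mul_apply, show f (v : V) = 0 from v.2, map_zero]
        · exact Subtype.ext v.2
        · exact Subtype.ext (congrArg (fun z : LinearMap.ker (f.restrict hmap) => ((z : N₀) : V)) hxy)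
    _ = _ := e
    _ ≤ _ := by
        refine Module.length_le_of_injective
          (Submodule.mapQ _ _ N₀.subtype fun v ⟨w, hw⟩ => ⟨w.1, congrArg Subtype.val hw⟩) ?_
        rw [← LinearMap.ker_eq_bot, Submodule.ker_mapQ, eq_bot_iff]
        rintro _ ⟨v, ⟨w, hw⟩, rfl⟩
        have hwN : w ∈ N₀ := by
          have h2 : LinearMap.ker (f ^ (m + 1)) = LinearMap.ker (f ^ (m + 1 + 1)) :=
            ((hm (m + 1) (by omega)).symm.trans (hm _ (by omega)) : _)
          change w ∈ LinearMap.ker (f ^ (m + 1))
          rw [h2, LinearMap.mem_ker, pow_succ, Module.End.mul_apply, hw]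
          exact v.2
        rw [Submodule.mem_bot, Submodule.mkQ_apply, Submodule.Quotient.mk_eq_zero]
        exact ⟨⟨w, hwN⟩, Subtype.ext hw⟩

/-- Powers of an element. -/
theorem length_quot_pow_le {V : Type*} [AddCommGroup V] [Module B V] (S : Submodule B V) (c : B)
    (k : ℕ) : Module.length B (V ⧸ (S ⊔ (⊤ : Submodule B V).map (LinearMap.lsmul B V (c ^ k)))) ≤
      (k : ℕ∞) * Module.length B (V ⧸ (S ⊔ (⊤ : Submodule B V).map (LinearMap.lsmul B V c))) := by
  induction k with
  | zero =>
    have : Subsingleton (V ⧸ (S ⊔ (⊤ : Submodule B V).map (LinearMap.lsmul B V (c ^ 0)))) :=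
      Submodule.Quotient.subsingleton_iff.2 (eq_top_iff.2 fun v _ =>
        Submodule.mem_sup_right ⟨v, trivial, by simp⟩)
    simp [Module.length_eq_zero]
  | succ k ih =>
    set Sk := S ⊔ (⊤ : Submodule B V).map (LinearMap.lsmul B V (c ^ k)) with hSk
    set Sk1 := S ⊔ (⊤ : Submodule B V).map (LinearMap.lsmul B V (c ^ (k + 1))) with hSk1
    refine (length_quot_le_map Sk1 ((⊤ : Submodule B V).map (LinearMap.lsmul B V c))).trans ?_
    rw [Nat.cast_succ, add_mul, one_mul, add_comm]
    refine add_le_add ?_ ?_
    · refine le_trans ?_ ih
      rw [← Submodule.map_comp, Submodule.map_top, ← LinearMap.quotKerEquivRange _ |>.length_eq]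
      refine length_quot_le_of_le (sup_le (fun v hv => ?_) ?_)
      · rw [LinearMap.mem_ker, LinearMap.comp_apply, Submodule.mkQ_apply,
          Submodule.Quotient.mk_eq_zero]
        exact Submodule.mem_sup_left (Submodule.smul_mem _ _ hv)
      · rintro _ ⟨v, -, rfl⟩
        rw [LinearMap.mem_ker, LinearMap.comp_apply, Submodule.mkQ_apply,
          Submodule.Quotient.mk_eq_zero]
        exact Submodule.mem_sup_right ⟨v, trivial, by simp [smul_smul, pow_succ, mul_comm]⟩
    · refine length_quot_le_of_le (sup_le ?_ ?_)
      · exact le_sup_left.trans le_sup_left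
      · exact le_sup_right

end Vale.Agent.P202.Mixed.MainG
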