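import Vale.Agent.P202.Mixed.Main.Tower

/-!
# P202 mixed characteristic, block G: the tower modulo an ideal

Modulo an ideal of finite colength the tower of a chain is exact up to the error and the colength
of `h`, and each of its steps is comparable with the almost free module.
-/

noncomputable section

namespace Vale.Agent.P202.Mixed.MainG

open IsLocalRing

universe u

section General

variable {B : Type*} [CommRing B] {N N' N'' : Type*} [AddCommGroup N] [Module B N]
  [AddCommGroup N'] [Module B N'] [AddCommGroup N''] [Module B N'']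

/-- A module modulo an ideal. -/
abbrev ModJ (J : Ideal B) (N : Type*) [AddCommGroup N] [Module B N] : Type _ :=
  N ⧸ (J • (⊤ : Submodule B N))

/-- The induced map modulo an ideal. -/
def mapJ (J : Ideal B) (f : N →ₗ[B] N') : ModJ J N →ₗ[B] ModJ J N' :=
  Submodule.mapQ _ _ f (Submodule.smul_top_le_comap_smul_top J f)

theorem mapJ_mk (J : Ideal B) (f : N →ₗ[B] N') (a : N) :
    mapJ J f (Submodule.Quotient.mk a) = Submodule.Quotient.mk (f a) := rfl

theorem mapJ_surjective (J : Ideal B) {f : N →ₗ[B] N'} (hf : Function.Surjective f) :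
    Function.Surjective (mapJ J f) := fun q => by
  obtain ⟨a, rfl⟩ := Submodule.Quotient.mk_surjective _ q
  obtain ⟨b, rfl⟩ := hf a
  exact ⟨Submodule.Quotient.mk b, rfl⟩

theorem mapJ_comp (J : Ideal B) (g : N' →ₗ[B] N'') (f : N →ₗ[B] N') :
    mapJ J (g.comp f) = (mapJ J g).comp (mapJ J f) := LinearMap.ext fun q => by
  obtain ⟨a, rfl⟩ := Submodule.Quotient.mk_surjective _ q
  rfl

/-- The kernel of a composite. -/
theorem length_ker_comp_le (g : N' →ₗ[B] N'') (f : N →ₗ[B] N') :
    Module.length B (LinearMap.ker (g.comp f)) ≤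
      Module.length B (LinearMap.ker f) + Module.length B (LinearMap.ker g) := by
  rw [length_ker_add_range (f.comp (LinearMap.ker (g.comp f)).subtype)]
  refine add_le_add ?_ ?_
  · refine Module.length_le_of_injective (LinearMap.codRestrict _
      ((LinearMap.ker (g.comp f)).subtype.comp (LinearMap.ker _).subtype) fun a => a.2) ?_
    intro a b hab
    exact Subtype.ext (Subtype.ext (congrArg (fun z : LinearMap.ker f => (z : N)) hab))
  · exact length_le_of_le (by rintro _ ⟨a, rfl⟩; exact a.2)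

/-- The cokernel of a multiple of an endomorphism, seen in a quotient. -/
theorem length_coker_smul_le {U M : Type*} [AddCommGroup U] [Module B U] [AddCommGroup M]
    [Module B M] (π : M →ₗ[B] U) (hπ : Function.Surjective π) (op : M →ₗ[B] M) (c : B) :
    Module.length B (U ⧸ LinearMap.range (c • π.comp op)) ≤
      Module.length B (U ⧸ LinearMap.range (c • (LinearMap.id : U →ₗ[B] U))) +
        Module.length B (M ⧸ LinearMap.range op) := by
  refine (length_quot_le_map (LinearMap.range (c • π.comp op))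
    (LinearMap.range (c • (LinearMap.id : U →ₗ[B] U)))).trans
    (add_le_add (length_quot_le_of_le le_sup_right) ?_)
  let φ : M →ₗ[B] U ⧸ LinearMap.range (c • π.comp op) :=
    (LinearMap.range (c • π.comp op)).mkQ.comp (c • π)
  have hφ : LinearMap.range op ≤ LinearMap.ker φ := by
    rintro _ ⟨a, rfl⟩
    exact (Submodule.Quotient.mk_eq_zero _).2 ⟨a, rfl⟩
  refine le_trans (length_le_of_le ?_) ((Module.length_le_of_surjective
    (LinearMap.rangeRestrict ((LinearMap.range op).liftQ φ hφ))
    (LinearMap.surjective_rangeRestrict _)))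
  rintro _ ⟨_, ⟨u, rfl⟩, rfl⟩
  obtain ⟨a, rfl⟩ := hπ u
  exact ⟨Submodule.Quotient.mk a, rfl⟩

variable (J : Ideal B) (c : B)

/-- The cokernel of a power, on a module modulo an ideal. -/
theorem length_coker_pow_le {m : ℕ} (s : Fin m → N) (hs : Submodule.span B (Set.range s) = ⊤)
    (k : ℕ) :
    Module.length B (ModJ J N ⧸ LinearMap.range (c ^ k • (LinearMap.id : ModJ J N →ₗ[B] _))) ≤
      (k : ℕ∞) * ((m : ℕ∞) * Module.length B (B ⧸ (J ⊔ Ideal.span {c}))) := by
  classical
  have e : ∀ r : B, (⊥ : Submodule B (ModJ J N)) ⊔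
      (⊤ : Submodule B (ModJ J N)).map (LinearMap.lsmul B (ModJ J N) r) =
      LinearMap.range (r • (LinearMap.id : ModJ J N →ₗ[B] _)) := fun r => by
    rw [bot_sup_eq, Submodule.map_top]
    congr 1
  refine le_trans (by rw [← e]; exact length_quot_pow_le ⊥ c k)
    (mul_le_mul_of_nonneg_left ?_ zero_le)
  let π := ((⊥ : Submodule B (ModJ J N)) ⊔
    (⊤ : Submodule B (ModJ J N)).map (LinearMap.lsmul B (ModJ J N) c))
  let f : (Fin m → B ⧸ (J ⊔ Ideal.span {c})) →ₗ[B] (ModJ J N ⧸ π) :=
    LinearMap.lsum B (fun _ : Fin m => B ⧸ (J ⊔ Ideal.span {c})) B fun i =>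
      (J ⊔ Ideal.span {c}).liftQ
        (LinearMap.toSpanSingleton B _ (π.mkQ (Submodule.Quotient.mk (s i)))) (by
          refine sup_le (fun r hr => ?_) (Ideal.span_le.2 ?_)
          · rw [LinearMap.mem_ker, LinearMap.toSpanSingleton_apply, ← map_smul,
              ← Submodule.Quotient.mk_smul, (Submodule.Quotient.mk_eq_zero _).2
                (Submodule.smul_mem_smul hr Submodule.mem_top), map_zero]
          · rintro _ rfl
            rw [SetLike.mem_coe, LinearMap.mem_ker, LinearMap.toSpanSingleton_apply, ← map_smul,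
              Submodule.mkQ_apply, Submodule.Quotient.mk_eq_zero]
            exact Submodule.mem_sup_right ⟨_, trivial, rfl⟩)
  refine (Module.length_le_of_surjective f ?_).trans (le_of_eq (by simp))
  intro q
  obtain ⟨q, rfl⟩ := Submodule.Quotient.mk_surjective _ q
  obtain ⟨n, rfl⟩ := Submodule.Quotient.mk_surjective _ q
  obtain ⟨a, ha⟩ := (Submodule.mem_span_range_iff_exists_fun B).1
    (hs.symm ▸ Submodule.mem_top : n ∈ Submodule.span B (Set.range s))
  refine ⟨fun i => Submodule.Quotient.mk (a i), ?_⟩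
  rw [← ha]
  simp [f, ← Submodule.mkQ_apply, map_sum]
  exact Finset.sum_congr rfl fun x _ => rfl

end General

variable {B : Type u} [CommRing B]

section Tor

variable {T : Type u} [CommRing T] [Algebra B T] (Φ : NC.Reso B T) {e : ℕ} (z : Fin e → B)
  (hT : Function.Surjective (algebraMap B T))

theorem augAt_map {M P : Type u} [AddCommGroup M] [Module B M] [AddCommGroup P] [Module B P]
    (f : M →ₗ[B] P) (S : Finset (Fin e)) (a : Φ.F.ι × Finset (Fin e) → M) :
    augAt Φ hT P S (fun q => f (a q)) = f (augAt Φ hT M S a) := by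
  simp [augAt_apply, map_sum]

theorem dP_map {M P : Type u} [AddCommGroup M] [Module B M] [AddCommGroup P] [Module B P]
    (f : M →ₗ[B] P) (a : Φ.F.ι × Finset (Fin e) → M) :
    dP Φ z P (fun q => f (a q)) = fun q => f (dP Φ z M a q) :=
  ((par Φ z).coef_d B f a).symm

include hT in
/-- The kernel of an inclusion modulo the ideal is killed by transitions with small image on first
homology. -/
theorem length_map_ker_le {K K' Y Y' X X' : Type u} [AddCommGroup K] [Module B K]
    [AddCommGroup K'] [Module B K'] [AddCommGroup Y] [Module B Y] [AddCommGroup Y'] [Module B Y']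
    [AddCommGroup X] [Module B X] [AddCommGroup X'] [Module B X'] (i : K →ₗ[B] Y) (p : Y →ₗ[B] X)
    (i' : K' →ₗ[B] Y') (p' : Y' →ₗ[B] X') (hi : Function.Injective i)
    (hi' : Function.Injective i') (hp' : Function.Surjective p')
    (hpi : ∀ a, p (i a) = 0) (hex : ∀ a, p a = 0 → ∃ b, i b = a)
    (hex' : ∀ a, p' a = 0 → ∃ b, i' b = a)
    (rK : K →ₗ[B] K') (rY : Y →ₗ[B] Y') (rX : X →ₗ[B] X') (hYK : ∀ a, rY (i a) = i' (rK a))
    (hXY : ∀ a, rX (p a) = p' (rY a)) :
    Module.length B ↥((LinearMap.ker (mapJ (parIdeal T z) i)).map (mapJ (parIdeal T z) rK)) ≤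
      imLen (par Φ z) rX := by
  classical
  set J := parIdeal T z with hJ
  let A : Submodule B (Φ.F.ι × Finset (Fin e) → Y) :=
    degP Φ Y 1 ⊓ LinearMap.ker (((par Φ z).coef B p).comp (dP Φ z Y))
  -- the augmentation of the differential
  have hA : ∀ a : A, ∃ b : K, i b = augAt Φ hT Y Finset.univ (dP Φ z Y a.1) := fun a => hex _ (by
    rw [← augAt_map]
    have h2 : (fun q => p (dP Φ z Y a.1 q)) = 0 := LinearMap.mem_ker.1 a.2.2
    rw [h2, map_zero])
  choose β hβ using hA
  let βl : A →ₗ[B] K :=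
    { toFun := β
      map_add' := fun a b => hi (by simp [hβ])
      map_smul' := fun c a => hi (by simp [hβ]) }
  let κ : A →ₗ[B] ModJ J K' := ((J • (⊤ : Submodule B K')).mkQ.comp rK).comp βl
  have hcyc : ∀ a : A, (par Φ z).coef B p a.1 ∈ ((par Φ z).diff X B).cycles ⊤ ⊥ 1 := fun a => by
    refine (Diff.mem_cycles _).2 ⟨trivial, ?_, ?_⟩
    · exact (par Φ z).coef_deg B p 1 _ ((deg_eq_degP Φ z Y 1 _).2 a.2.1)
    · rw [Submodule.mem_bot]
      exact ((par Φ z).coef_d B p _).symm.trans (LinearMap.mem_ker.1 a.2.2)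
  let ρ : A →ₗ[B] ((par Φ z).ι → X') ⧸ ((par Φ z).diff X' B).bdries ⊤ ⊥ 1 :=
    (imMap (par Φ z) rX).comp
      (LinearMap.codRestrict _ (((par Φ z).coef B p).comp A.subtype) hcyc)
  have h1 : (LinearMap.ker (mapJ J i)).map (mapJ J rK) ≤ LinearMap.range κ := by
    rintro _ ⟨q, hq, rfl⟩
    obtain ⟨a, rfl⟩ := Submodule.Quotient.mk_surjective _ q
    rw [SetLike.mem_coe, LinearMap.mem_ker, mapJ_mk, Submodule.Quotient.mk_eq_zero] at hq
    obtain ⟨w, hw⟩ := Φ.surj 1
    let u₀ := Φ.F.posProj B 0 w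
    have hu₀ : ∀ b, Φ.F.pos b ≠ 0 → u₀ b = 0 := fun b hb => by
      simp [u₀, FreeCx.posProj_apply, hb]
    set c₀ := ∑ b, coefc Φ hT b * u₀ b with hc₀
    have hεu₀ : algebraMap B T c₀ = 1 := by
      have e1 : Φ.ε u₀ = 1 := by rw [Φ.ε_posProj_zero, hw]
      rw [← e1, Φ.ε_apply, hc₀, map_sum]
      refine Finset.sum_congr rfl fun b _ => ?_
      rw [map_mul, algebraMap_coefc, Algebra.smul_def, mul_comm]
    let f₀ : Φ.F.ι × Finset (Fin e) → Y := emb Φ Y (Finset.univ : Finset (Fin e)) u₀ (i a)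
    have haug : augAt Φ hT Y Finset.univ f₀ = c₀ • i a := by
      rw [augAt_apply, hc₀, Finset.sum_smul]
      simp [f₀, emb_apply, smul_smul]
    have hf₀ : f₀ ∈ degP Φ Y 0 := emb_mem_degP Φ Y _ _ _ _ fun b hb => by
      rw [Finset.card_univ, Fintype.card_fin, Nat.sub_self, add_zero] at hb
      exact hu₀ b hb
    obtain ⟨ξ, hξ, hdξ⟩ := exists_dP_eq Φ z hT Y f₀ hf₀
      (haug ▸ Submodule.smul_mem _ c₀ hq)
    have hξA : ξ ∈ A := by
      refine ⟨hξ, LinearMap.mem_ker.2 (funext fun q => ?_)⟩
      change p (dP Φ z Y ξ q) = 0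
      rw [hdξ]
      simp only [f₀, emb, LinearMap.coe_mk, AddHom.coe_mk]
      split_ifs <;> simp [hpi]
    refine ⟨⟨ξ, hξA⟩, ?_⟩
    have hb : β ⟨ξ, hξA⟩ = c₀ • a := hi (by rw [hβ, map_smul, ← haug, hdξ])
    change Submodule.Quotient.mk (rK (β ⟨ξ, hξA⟩)) = Submodule.Quotient.mk (rK a)
    rw [hb, map_smul, Submodule.Quotient.eq]
    have : c₀ • rK a - rK a = (c₀ - 1) • rK a := by rw [sub_smul, one_smul]
    rw [this]
    exact Submodule.smul_mem_smul (Submodule.mem_sup_left
      (by rw [RingHom.mem_ker, map_sub, hεu₀, map_one, sub_self])) Submodule.mem_top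
  have h2 : (LinearMap.ker ρ).map κ = ⊥ := by
    rw [eq_bot_iff]
    rintro _ ⟨a, ha, rfl⟩
    rw [Submodule.mem_bot]
    have ha' : (par Φ z).coef B rX ((par Φ z).coef B p a.1) ∈
        ((par Φ z).diff X' B).bdries ⊤ ⊥ 1 := (Submodule.Quotient.mk_eq_zero _).1 ha
    obtain ⟨v, ⟨-, hv⟩, y, ⟨hy, -⟩, he⟩ := (Diff.mem_bdries _).1 ha'
    rw [Submodule.mem_bot] at hy
    rw [hy, add_zero] at he
    let η : (par Φ z).ι → Y' :=
      (par Φ z).posProj Y' (1 + 1) fun q => Function.surjInv hp' (v q)
    have hη : (par Φ z).coef B p' η = v := by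
      funext q
      simp only [η, FreeCx.coef_apply, FreeCx.posProj_apply]
      split_ifs with hb
      · exact Function.surjInv_eq hp' _
      · rw [map_zero, hv q hb]
    set r := (par Φ z).coef B rY a.1 - ((par Φ z).diff Y' B).d η with hr
    have hr0 : ∀ q, p' (r q) = 0 := fun q => by
      have h3 : (par Φ z).coef B p' r = 0 := by
        rw [hr, map_sub, FreeCx.coef_d, hη, he, sub_eq_zero]
        funext q'
        exact (hXY _).symm
      exact congrFun h3 q
    choose ζ hζ using fun q => hex' (r q) (hr0 q)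
    have hdr : dP Φ z Y' r = fun q => rY (dP Φ z Y a.1 q) := by
      rw [hr, ← dP_map]
      change ((par Φ z).diff Y' B).d _ = _
      rw [map_sub, Diff.d_d, sub_zero]
      rfl
    change Submodule.Quotient.mk (rK (β a)) = 0
    rw [Submodule.Quotient.mk_eq_zero]
    have key : rK (β a) = augAt Φ hT K' Finset.univ (dP Φ z K' ζ) := hi' (by
      rw [← hYK, hβ, ← augAt_map, ← hdr]
      exact ((congrArg (fun r' => augAt Φ hT Y' Finset.univ (dP Φ z Y' r'))
        (funext fun q => (hζ q).symm)).trans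
          (congrArg (augAt Φ hT Y' Finset.univ) (dP_map Φ z i' ζ))).trans
            (augAt_map Φ hT i' _ _))
    rw [key]
    exact augAt_univ_dP_mem Φ z hT K' ζ
  refine (length_le_of_le h1).trans ((length_range_le_add ρ κ).trans ?_)
  rw [h2, Module.length_bot, add_zero]
  exact length_range_comp_le' _ _

end Tor

end Vale.Agent.P202.Mixed.MainG
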