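import Vale.Agent.P202.Mixed.Main.Complex
import Vale.Agent.P202.Mixed.Main.Len
import Vale.Agent.P202.Koszul.Prune
import Vale.Agent.P202.HomAlg.Homotopy
import Vale.Agent.P202.HomAlg.Pair

/-!
# P202 mixed characteristic, block G: parameters on almost free modules

The length of `M / (I, y ^ N) M` grows like `N ^ e` up to the stable error, and the complex of the
first powers has a minimal model to which the window applies.
-/

noncomputable section

namespace Vale.Agent.P202.Mixed.MainG

open IsLocalRing Matrix

universe u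

variable {B : Type u} [CommRing B]

/-- The length of a module modulo an ideal. -/
def qLen (J : Ideal B) (M : Type u) [AddCommGroup M] [Module B M] : ℕ∞ :=
  Module.length B (M ⧸ (J • (⊤ : Submodule B M)))

section Fil

variable {d : ℕ} {M : Type u} [AddCommGroup M] [Module (Rz B d) M] [Module B M]
  [IsScalarTower B (Rz B d) M]

/-- An ideal of the base times a module over the operators is stable under the operators. -/
def smulTopRz (J : Ideal B) : Submodule (Rz B d) M where
  carrier := {m | m ∈ J • (⊤ : Submodule B M)}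
  add_mem' ha hb := (J • (⊤ : Submodule B M)).add_mem ha hb
  zero_mem' := (J • (⊤ : Submodule B M)).zero_mem
  smul_mem' p m hm := by
    refine Submodule.smul_induction_on hm (fun r hr n _ => ?_) (fun a b ha hb => ?_)
    · rw [smul_comm]
      exact Submodule.smul_mem_smul hr Submodule.mem_top
    · rw [smul_add]; exact (J • (⊤ : Submodule B M)).add_mem ha hb

theorem mem_smulTopRz {J : Ideal B} {m : M} :
    m ∈ smulTopRz (d := d) (M := M) J ↔ m ∈ J • (⊤ : Submodule B M) := Iff.rfl

/-- High levels lie in an ideal of finite colength, uniformly in the module. -/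
theorem exists_fil_le [IsLocalRing B] (x : Fin d → B) (Q K : ℕ) (J : Ideal B)
    (hJ : ∃ A, maximalIdeal B ^ A ≤ J) (hx : ∀ a, x a ∈ maximalIdeal B) :
    ∃ w₀ : ℕ, ∀ (M : Type u) [AddCommGroup M] [Module (Rz B d) M] [Module B M]
      [IsScalarTower B (Rz B d) M], (∀ (a : Fin d) (m : M),
        x a • m = (MvPolynomial.X a : Rz B d) ^ Q • m) →
      ∀ w : ℕ, w₀ ≤ w → (fil B (d := d) M K (w : ℤ)).restrictScalars B ≤
        J • (⊤ : Submodule B M) := by
  obtain ⟨A, hA⟩ := hJ
  let I : Ideal (Rz B d) :=
    Ideal.span (Set.range fun a : Fin d => (MvPolynomial.X a : Rz B d) ^ (Q * A))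
  obtain ⟨b₀, hb₀⟩ := Ideal.exists_pow_le_of_le_radical_of_fg (I := zIdeal B d) (J := I)
    (Ideal.span_le.2 (by
      rintro _ ⟨a, rfl⟩
      exact ⟨Q * A, Ideal.subset_span ⟨a, rfl⟩⟩))
    ⟨(Set.finite_range (MvPolynomial.X : Fin d → Rz B d)).toFinset, by simp [zIdeal]⟩
  refine ⟨A * K + b₀, fun M _ _ _ _ hxs w hw => ?_⟩
  suffices h : fil B (d := d) M K (w : ℤ) ≤ smulTopRz (d := d) (M := M) J from
    fun m hm => mem_smulTopRz.1 (h hm)
  rw [fil, wIdeal]
  refine Submodule.smul_le.2 fun p hp m _ => ?_
  have hle : (⨆ (a : ℕ) (b : ℕ) (_ : (w : ℤ) ≤ ((a * K + b : ℕ) : ℤ)),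
      (maximalIdeal B ^ a).map MvPolynomial.C * zIdeal B d ^ b) ≤
      (maximalIdeal B ^ A).map MvPolynomial.C ⊔ I := by
    refine iSup_le fun a => iSup_le fun b => iSup_le fun hab => ?_
    by_cases ha : A ≤ a
    · exact Ideal.mul_le_left.trans
        ((Ideal.map_mono (Ideal.pow_le_pow_right ha)).trans le_sup_left)
    · have h1 : a * K ≤ A * K := Nat.mul_le_mul_right K (by omega)
      have h2 : w ≤ a * K + b := by exact_mod_cast hab
      exact Ideal.mul_le_right.trans ((Ideal.pow_le_pow_right (by omega)).trans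
        (hb₀.trans le_sup_right))
  have hann : (maximalIdeal B ^ A).map MvPolynomial.C ⊔ I ≤
      (smulTopRz (d := d) (M := M) J).comap (LinearMap.toSpanSingleton (Rz B d) M m) := by
    refine sup_le ?_ (Ideal.span_le.2 ?_)
    · refine Ideal.span_le.2 ?_
      rintro _ ⟨r, hr, rfl⟩
      have e : (MvPolynomial.C r : Rz B d) • m = r • m := by
        rw [← MvPolynomial.algebraMap_eq]; exact IsScalarTower.algebraMap_smul _ r m
      show (MvPolynomial.C r : Rz B d) • m ∈ smulTopRz (d := d) (M := M) J
      rw [e, mem_smulTopRz]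
      exact Submodule.smul_mem_smul (hA hr) Submodule.mem_top
    · rintro _ ⟨a, rfl⟩
      rw [SetLike.mem_coe, Submodule.mem_comap, LinearMap.toSpanSingleton_apply]
      have hk : ∀ k : ℕ, (MvPolynomial.X a : Rz B d) ^ (Q * k) • m = x a ^ k • m := by
        intro k
        induction k with
        | zero => simp
        | succ k ih =>
          rw [Nat.mul_succ, pow_add, mul_comm, mul_smul, ih, pow_succ', mul_smul, hxs]
      rw [hk, mem_smulTopRz]
      exact Submodule.smul_mem_smul (hA (Ideal.pow_mem_pow (hx a) A)) Submodule.mem_top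
  exact hann (hle hp)

end Fil

section Null

variable {d : ℕ} (x : Fin d → B)

/-- Null powers from membership in the null ideal. -/
theorem nullPowers_of_le (G : FreeCx B) (J : Ideal B) (hJ : J ≤ nullIdeal G)
    (h : ∃ A, ∀ a, x a ^ A ∈ J) : NullPowers G x := by
  obtain ⟨A, hA⟩ := h
  exact ⟨A + 1, by omega, fun a => mem_nullIdeal.1 (hJ (by
    rw [pow_succ]; exact J.mul_mem_right _ (hA a)))⟩

theorem kills_of_mem_nullIdeal {G : FreeCx B} {r : B} (hr : r ∈ nullIdeal G) (M : Type u)
    [AddCommGroup M] [Module B M] : G.Kills M r := by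
  obtain ⟨s, -, hs⟩ := hr
  intro f hf
  refine ⟨fun h => ∑ g, s h g • f g, funext fun l => ?_⟩
  have h0 : ∑ h, s l h • G.dA M f h = 0 := by simp [hf]
  simp only [FreeCx.dA_apply, Finset.smul_sum, smul_smul] at h0 ⊢
  rw [Finset.sum_comm] at h0 ⊢
  simp only [← Finset.sum_smul, ← Matrix.mul_apply] at h0 ⊢
  have : ∑ g, (G.mat * s) l g • f g + ∑ g, (s * G.mat) l g • f g =
      ∑ g, (r • (1 : Matrix G.ι G.ι B)) l g • f g := by
    rw [← Finset.sum_add_distrib, ← hs]
    exact Finset.sum_congr rfl fun g _ => by rw [Matrix.add_apply, add_smul]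
  rw [h0, add_zero] at this
  rw [this, Pi.smul_apply]
  simp [Matrix.one_apply, ite_smul]

/-- Null-homotopic elements of a complex give null-homotopic powers on a complex with the same
homology. -/
theorem pow_mem_nullIdeal_of_equiv {G G' : FreeCx B} {L : ℕ} (hL : G'.LengthLE L) {r : B}
    (hr : r ∈ nullIdeal G)
    (e : ∀ j, Nonempty ((G.diff B B).H ⊤ ⊥ j ≃ₗ[B] (G'.diff B B).H ⊤ ⊥ j)) :
    r ^ (L + 1) ∈ nullIdeal G' := by
  classical
  have hk : G'.Kills B r := by
    intro f hf
    have hcomp : ∀ i ∈ Finset.range (L + 1),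
        r • G'.posProj B (i : ℤ) f ∈ LinearMap.range (G'.dA B) := by
      intro i _
      have hmem : G'.posProj B (i : ℤ) f ∈ G'.cyclesA B (i : ℤ) := by
        refine ⟨?_, f, rfl⟩
        rw [SetLike.mem_coe, LinearMap.mem_ker]
        have := G'.dA_posProj B ((i : ℤ) - 1) f
        rw [sub_add_cancel] at this
        rw [this, hf, map_zero]
      obtain ⟨E⟩ := e (i : ℤ)
      set q : (G'.diff B B).cycles ⊤ ⊥ (i : ℤ) := ⟨_, FreeCx.mem_cyclesA_iff.1 hmem⟩
      have hz : r • (Submodule.Quotient.mk q : (G'.diff B B).H ⊤ ⊥ (i : ℤ)) = 0 := by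
        obtain ⟨c, hc⟩ := Submodule.Quotient.mk_surjective _ (E.symm (Submodule.Quotient.mk q))
        rw [← E.apply_symm_apply (r • Submodule.Quotient.mk q), map_smul, ← hc]
        have : r • (Submodule.Quotient.mk c : (G.diff B B).H ⊤ ⊥ (i : ℤ)) = 0 := by
          rw [← Submodule.Quotient.mk_smul, Diff.mk_eq_zero_iff]
          exact FreeCx.mem_bdriesA_iff.1 ((kills_of_mem_nullIdeal hr B).mem_bdries
            (FreeCx.mem_cyclesA_iff.2 c.2))
        rw [this, map_zero]
      rw [← Submodule.Quotient.mk_smul, Diff.mk_eq_zero_iff] at hz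
      exact LinearMap.map_le_range (FreeCx.mem_bdriesA_iff.2 hz)
    have hsum : f = ∑ i ∈ Finset.range (L + 1), G'.posProj B (i : ℤ) f := by
      funext g
      rw [Finset.sum_apply]
      simp only [FreeCx.posProj_apply, Nat.cast_inj]
      rw [Finset.sum_ite_eq, if_pos (Finset.mem_range.2 (Nat.lt_succ_of_le (hL g)))]
    rw [hsum, Finset.smul_sum]
    exact LinearMap.mem_range.1 (Submodule.sum_mem _ hcomp)
  obtain ⟨s, hs⟩ := G'.exists_homotopy hk hL
  let s' : Matrix G'.ι G'.ι B := fun h g => if G'.pos h = G'.pos g + 1 then s h g else 0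
  refine mem_nullIdeal.2 ⟨s', fun h g hne => by_contra fun hc => hne (if_neg hc), ?_⟩
  ext h g
  have h1 := congrFun (congrFun hs h) g
  rw [Matrix.add_apply, Matrix.mul_apply, Matrix.mul_apply] at h1 ⊢
  by_cases hp : G'.pos h = G'.pos g
  · rw [← h1]
    congr 1
    · refine Finset.sum_congr rfl fun l _ => ?_
      by_cases hm : G'.mat h l = 0
      · simp [hm]
      · have := G'.mat_pos h l hm
        rw [show s' l g = s l g from if_pos (by omega)]
    · refine Finset.sum_congr rfl fun l _ => ?_
      by_cases hm : G'.mat l g = 0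
      · simp [hm]
      · have := G'.mat_pos l g hm
        rw [show s' h l = s h l from if_pos (by omega)]
  · rw [Matrix.smul_apply, Matrix.one_apply_ne (fun e => hp (by rw [e])), smul_zero,
      Finset.sum_eq_zero fun l _ => ?_, Finset.sum_eq_zero fun l _ => ?_, add_zero]
    · by_cases hm : G'.mat l g = 0
      · simp [hm]
      · have := G'.mat_pos l g hm
        rw [show s' h l = 0 from if_neg (by omega), zero_mul]
    · by_cases hm : G'.mat h l = 0
      · simp [hm]
      · have := G'.mat_pos h l hm
        rw [show s' l g = 0 from if_neg (by omega), mul_zero]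

end Null

section Param

variable {T : Type u} [CommRing T] [Algebra B T] (Φ : NC.Reso B T) {e : ℕ} (z : Fin e → B)
  (hT : Function.Surjective (algebraMap B T))

include hT in
/-- The homology in position zero is at most the module modulo the ideal. -/
theorem hLen_zero_le (M : Type u) [AddCommGroup M] [Module B M] :
    hLen B M (par Φ z) 0 ≤ qLen (parIdeal T z) M := by
  let c : ((par Φ z).diff M B).cycles ⊤ ⊥ 0 →ₗ[B] (M ⧸ parIdeal T z • (⊤ : Submodule B M)) :=
    ((parIdeal T z • (⊤ : Submodule B M)).mkQ.comp (augAt Φ hT M Finset.univ)).comp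
      (((par Φ z).diff M B).cycles ⊤ ⊥ 0).subtype
  have hker : LinearMap.ker c =
      (((par Φ z).diff M B).bdries ⊤ ⊥ 0).comap
        (((par Φ z).diff M B).cycles ⊤ ⊥ 0).subtype := by
    ext f
    rw [LinearMap.mem_ker, Submodule.mem_comap]
    change Submodule.Quotient.mk _ = 0 ↔ _
    rw [Submodule.Quotient.mk_eq_zero]
    constructor
    · intro h
      obtain ⟨v, hv, hdv⟩ := exists_dP_eq Φ z hT M f.1
        ((deg_eq_degP Φ z M 0 _).1 f.2.1.2) h
      exact Submodule.mem_sup_left ⟨v, ⟨trivial, (deg_eq_degP Φ z M 1 v).2 hv⟩, hdv⟩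
    · intro h
      obtain ⟨v, -, y, ⟨hy, -⟩, he⟩ := (Diff.mem_bdries _).1 h
      rw [Submodule.mem_bot] at hy
      rw [hy, add_zero] at he
      have := augAt_univ_dP_mem Φ z hT M v
      exact (show dP Φ z M v = _ from he) ▸ this
  refine Module.length_le_of_injective (Submodule.liftQ _ c hker.ge) ?_
  rw [← LinearMap.ker_eq_bot, Submodule.ker_liftQ, hker, Submodule.mkQ_map_self]

variable [IsLocalRing B]

include hT in
/-- The minimal model of the complex. -/
theorem exists_min {d : ℕ} (x : Fin d → B) {L : ℕ} (hL : (par Φ z).LengthLE L)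
    (hJ : parIdeal T z ≤ maximalIdeal B) (hx : ∃ A, ∀ a, x a ^ A ∈ parIdeal T z) :
    ∃ G : FreeCx B, G.LengthLE L ∧ G.EntriesIn (maximalIdeal B) ∧ NullPowers G x ∧
      1 ≤ G.rank 0 ∧
      ∀ (M : Type u) [AddCommGroup M] [Module B M], hLen B M G 0 ≤ qLen (parIdeal T z) M := by
  classical
  obtain ⟨G, h1, h2, h3⟩ := FreeCx.exists_minimal _ (par Φ z) le_rfl
  refine ⟨G, h1 L hL, h2, ?_, ?_, fun M _ _ => ?_⟩
  · obtain ⟨A, hA⟩ := hx
    refine nullPowers_of_le x G (nullIdeal G) le_rfl ⟨A * (L + 1), fun a => ?_⟩
    rw [pow_mul]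
    exact pow_mem_nullIdeal_of_equiv (h1 L hL) (parIdeal_le_nullIdeal Φ z (hA a))
      fun j => h3 B B j
  · by_contra hrank
    have hempty : ∀ g, G.pos g ≠ 0 := fun g hg => by
      apply hrank
      rw [FreeCx.rank]
      exact Finset.card_pos.2 ⟨g, by simp [hg]⟩
    have hz : ∀ q : (G.diff B B).H ⊤ ⊥ 0, q = 0 := fun q => by
      obtain ⟨f, rfl⟩ := Submodule.Quotient.mk_surjective _ q
      have : f = 0 := Subtype.ext (funext fun g => f.2.1.2 g (by exact_mod_cast hempty g))
      rw [this]; rfl
    obtain ⟨E⟩ := h3 B B 0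
    obtain ⟨w, hw⟩ := Φ.surj 1
    let u₀ := Φ.F.posProj B 0 w
    let f₀ : (par Φ z).ι → B := emb Φ B Finset.univ u₀ 1
    have hdeg : f₀ ∈ degP Φ B 0 := emb_mem_degP Φ B _ _ _ _ fun b hb => by
      rw [Finset.card_univ, Fintype.card_fin, Nat.sub_self, add_zero] at hb
      simp [u₀, FreeCx.posProj_apply, hb]
    have hcy : f₀ ∈ ((par Φ z).diff B B).cycles ⊤ ⊥ 0 := by
      refine ⟨⟨trivial, (deg_eq_degP Φ z B 0 _).2 hdeg⟩, ?_⟩
      have h0 := Diff.d_deg ((par Φ z).diff B B) 0 f₀ ((deg_eq_degP Φ z B 0 _).2 hdeg)
      rw [SetLike.mem_coe, Submodule.mem_comap, Submodule.mem_bot]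
      exact (funext fun q => h0 q (by
        have : (0 : ℤ) ≤ (par Φ z).pos q := Int.natCast_nonneg _
        omega))
    have h0 : (Submodule.Quotient.mk ⟨f₀, hcy⟩ : ((par Φ z).diff B B).H ⊤ ⊥ 0) = 0 :=
      E.injective (by rw [map_zero]; exact hz _)
    rw [Diff.mk_eq_zero_iff] at h0
    obtain ⟨v, -, y, ⟨hy, -⟩, he⟩ := (Diff.mem_bdries _).1 h0
    rw [Submodule.mem_bot] at hy
    rw [hy, add_zero] at he
    have hm := augAt_univ_dP_mem Φ z hT B v
    rw [show dP Φ z B v = f₀ from he] at hm
    have h1' : algebraMap B T (augAt Φ hT B Finset.univ f₀) = 1 := by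
      have e1 : Φ.ε u₀ = 1 := by rw [Φ.ε_posProj_zero, hw]
      rw [← e1, Φ.ε_apply, augAt_apply, map_sum]
      refine Finset.sum_congr rfl fun b _ => ?_
      simp only [f₀, emb_apply, if_true, smul_eq_mul, mul_one, map_mul, algebraMap_coefc,
        Algebra.smul_def]
      ring
    have h2' : augAt Φ hT B Finset.univ f₀ ∈ maximalIdeal B := by
      refine hJ ?_
      rwa [Ideal.smul_eq_mul, ← Ideal.one_eq_top, mul_one] at hm
    have h3' : augAt Φ hT B Finset.univ f₀ - 1 ∈ parIdeal T z :=
      Submodule.mem_sup_left (by rw [RingHom.mem_ker, map_sub, h1', map_one, sub_self])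
    have := sub_mem h2' (hJ h3')
    rw [sub_sub_cancel] at this
    exact (Ideal.ne_top_iff_one _).1 (maximalIdeal.isMaximal B).ne_top this
  · obtain ⟨E⟩ := h3 B M 0
    exact le_of_eq_of_le E.length_eq.symm (hLen_zero_le Φ z hT M)

include hT in
/-- One step of regularity: splitting one parameter. -/
theorem qLen_step {d : ℕ} (M : Type u) [AddCommGroup M] [Module (Rz B d) M] [Module B M]
    [IsScalarTower B (Rz B d) M] (K w w' : ℕ) (i : Fin e) (c u : B)
    (hfil : (fil B (d := d) M K (w : ℤ)).restrictScalars B ≤
      parIdeal T (Function.update z i u) • (⊤ : Submodule B M)) :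
    qLen (parIdeal T (Function.update z i c)) M + qLen (parIdeal T (Function.update z i u)) M ≤
      qLen (parIdeal T (Function.update z i (c * u))) M +
        stabLen B (d := d) M (par Φ (Function.update z i c)) K 0 (w : ℤ) (w' : ℤ) 1 := by
  classical
  set Jc := parIdeal T (Function.update z i c) with hJc
  set Ju := parIdeal T (Function.update z i u) with hJu
  set Jcu := parIdeal T (Function.update z i (c * u)) with hJcu
  let Jr : Ideal B := parIdeal T (Function.update z i 0)
  have hdec : ∀ v, parIdeal T (Function.update z i v) = Jr ⊔ Ideal.span {v} := by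
    intro v
    refine le_antisymm (sup_le (le_sup_left.trans le_sup_left) (Ideal.span_le.2 ?_))
      (sup_le (sup_le le_sup_left (Ideal.span_le.2 ?_)) (Ideal.span_le.2 ?_))
    · rintro _ ⟨a, rfl⟩
      by_cases ha : a = i
      · rw [ha, Function.update_self]
        exact Submodule.mem_sup_right (Ideal.mem_span_singleton_self v)
      · rw [Function.update_of_ne ha]
        exact Submodule.mem_sup_left (Submodule.mem_sup_right (Ideal.subset_span
          ⟨a, Function.update_of_ne ha _ _⟩))
    · rintro _ ⟨a, rfl⟩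
      by_cases ha : a = i
      · rw [ha, Function.update_self]; exact zero_mem _
      · rw [Function.update_of_ne ha]
        exact Submodule.mem_sup_right (Ideal.subset_span ⟨a, Function.update_of_ne ha _ _⟩)
    · rintro _ rfl
      exact Submodule.mem_sup_right (Ideal.subset_span ⟨i, Function.update_self _ _ _⟩)
  have hcu_le : Jcu ≤ Jc := by
    rw [hJcu, hJc, hdec, hdec]
    exact sup_le_sup_left (Ideal.span_singleton_le_span_singleton.2 (dvd_mul_right c u)) _
  let μ : (M ⧸ Ju • (⊤ : Submodule B M)) →ₗ[B] (M ⧸ Jcu • (⊤ : Submodule B M)) :=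
    Submodule.mapQ _ _ (LinearMap.lsmul B M c) fun m hm => by
      refine Submodule.smul_induction_on hm (fun r hr n _ => ?_) (fun a b ha hb => ?_)
      · rw [Submodule.mem_comap, LinearMap.lsmul_apply, smul_smul]
        refine Submodule.smul_mem_smul ?_ Submodule.mem_top
        rw [hJu, hdec, Submodule.mem_sup] at hr
        obtain ⟨r₁, hr₁, r₂, hr₂, rfl⟩ := hr
        rw [hJcu, hdec, mul_add]
        refine add_mem (Submodule.mem_sup_left (Jr.mul_mem_left _ hr₁))
          (Submodule.mem_sup_right ?_)
        rw [Ideal.mem_span_singleton] at hr₂ ⊢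
        exact mul_dvd_mul_left c hr₂
      · exact add_mem ha hb
  have h1 := length_ker_add_range μ
  have h2 : qLen Jcu M = qLen Jc M + Module.length B (LinearMap.range μ) := by
    rw [qLen, qLen, length_submodule_add (LinearMap.range μ), add_comm]
    congr 1
    let π : (M ⧸ Jcu • (⊤ : Submodule B M)) →ₗ[B] (M ⧸ Jc • (⊤ : Submodule B M)) :=
      Submodule.factor (Submodule.smul_mono_left hcu_le)
    have hπ : LinearMap.ker π = LinearMap.range μ := by
      ext q
      obtain ⟨m, rfl⟩ := Submodule.Quotient.mk_surjective _ q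
      change Submodule.Quotient.mk m = 0 ↔ _
      rw [Submodule.Quotient.mk_eq_zero]
      constructor
      · intro hm
        refine Submodule.smul_induction_on hm (fun r hr n _ => ?_) (fun a b ha hb => ?_)
        · rw [hJc, hdec, Submodule.mem_sup] at hr
          obtain ⟨r₁, hr₁, r₂, hr₂, rfl⟩ := hr
          obtain ⟨t, rfl⟩ := Ideal.mem_span_singleton'.1 hr₂
          refine ⟨Submodule.Quotient.mk (t • n), ?_⟩
          rw [Submodule.mapQ_apply, Submodule.Quotient.eq, LinearMap.lsmul_apply, add_smul,
            smul_smul, mul_comm c t]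
          simp only [sub_add_cancel_right]
          refine neg_mem (Submodule.smul_mem_smul ?_ Submodule.mem_top)
          rw [hJcu, hdec]
          exact Submodule.mem_sup_left hr₁
        · rw [Submodule.Quotient.mk_add]; exact add_mem ha hb
      · rintro ⟨q, hq⟩
        obtain ⟨n, rfl⟩ := Submodule.Quotient.mk_surjective _ q
        rw [Submodule.mapQ_apply, Submodule.Quotient.eq, LinearMap.lsmul_apply] at hq
        have h5 : c • n ∈ Jc • (⊤ : Submodule B M) := Submodule.smul_mem_smul (by
          rw [hJc, hdec]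
          exact Submodule.mem_sup_right (Ideal.mem_span_singleton_self c)) Submodule.mem_top
        have := sub_mem h5 (Submodule.smul_mono_left hcu_le hq)
        rwa [sub_sub_cancel] at this
    rw [← hπ, π.quotKerEquivOfSurjective (Submodule.factor_surjective _) |>.length_eq]
  have h3 : Module.length B (LinearMap.ker μ) ≤
      stabLen B (d := d) M (par Φ (Function.update z i c)) K 0 (w : ℤ) (w' : ℤ) 1 := by
    set zc := Function.update z i c with hzc
    set D := (par Φ zc).diff M B
    set S := Finset.univ.erase i with hS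
    set σ : B := (kosSign S i : B) with hσ
    have hσσ : σ * σ = 1 := by simp [hσ, kosSign, ← pow_add, ← two_mul, pow_mul]
    let φ : ((par Φ zc).ι → M) →ₗ[B] (M ⧸ Ju • (⊤ : Submodule B M)) :=
      σ • (Ju • (⊤ : Submodule B M)).mkQ.comp (augAt Φ hT M S)
    set N := D.bdries ⊤ (filG B (d := d) M (par Φ zc) K 0 (w : ℤ)) 1
    set Zc := D.cycles ⊤ (filG B (d := d) M (par Φ zc) K 0 (w' : ℤ)) 1
    have hkill : N ≤ LinearMap.ker φ := by
      intro f hf
      obtain ⟨v, -, y, ⟨hy, -⟩, he⟩ := (Diff.mem_bdries _).1 hf
      rw [LinearMap.mem_ker]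
      change σ • (Ju • (⊤ : Submodule B M)).mkQ (augAt Φ hT M S f) = 0
      rw [Submodule.mkQ_apply, (Submodule.Quotient.mk_eq_zero _).2 ?_, smul_zero]
      rw [← he]
      let y' : Φ.F.ι × Finset (Fin e) → M := y
      change augAt Φ hT M S (dP Φ zc M v + y') ∈ _
      rw [map_add]
      refine add_mem (augAt_dP_mem Φ zc hT M S Ju le_sup_left (fun a ha => ?_) v) ?_
      · have hai : a ≠ i := (Finset.mem_erase.1 ha).1
        rw [hzc, Function.update_of_ne hai]
        exact Submodule.mem_sup_right (Ideal.subset_span ⟨a, Function.update_of_ne hai _ _⟩)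
      · rw [augAt_apply]
        refine Submodule.sum_mem _ fun b _ => Submodule.smul_mem _ _ (hfil ?_)
        have h6 := hy (b, S)
        simp only [zero_mul, Nat.cast_zero, sub_zero] at h6
        exact h6
    have h4 : LinearMap.ker μ ≤ Zc.map φ := by
      intro q hq
      obtain ⟨m, rfl⟩ := Submodule.Quotient.mk_surjective _ q
      rw [LinearMap.mem_ker, Submodule.mapQ_apply, Submodule.Quotient.mk_eq_zero,
        LinearMap.lsmul_apply, hJcu, hdec, Submodule.sup_smul, Submodule.mem_sup] at hq
      obtain ⟨m₁, hm₁, m₂, hm₂, hm⟩ := hq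
      obtain ⟨m', -, hm'⟩ := (Submodule.mem_smul_pointwise_iff_exists _ _ _).1
        (by rwa [Submodule.ideal_span_singleton_smul] at hm₂)
      obtain ⟨w₁, hw₁⟩ := Φ.surj 1
      let u₀ := Φ.F.posProj B 0 w₁
      have hu₀ : ∀ b, Φ.F.pos b ≠ 0 → u₀ b = 0 := fun b hb => by
        simp [u₀, FreeCx.posProj_apply, hb]
      have hεu₀ : algebraMap B T (∑ b, coefc Φ hT b * u₀ b) = 1 := by
        have e1 : Φ.ε u₀ = 1 := by rw [Φ.ε_posProj_zero, hw₁]
        rw [← e1, Φ.ε_apply, map_sum]
        refine Finset.sum_congr rfl fun b _ => ?_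
        rw [map_mul, algebraMap_coefc, Algebra.smul_def, mul_comm]
      have hsub : ∀ n : M, n - (∑ b, coefc Φ hT b * u₀ b) • n ∈ kerI B T • (⊤ : Submodule B M) :=
        fun n => by
        rw [show n - (∑ b, coefc Φ hT b * u₀ b) • n = (1 - ∑ b, coefc Φ hT b * u₀ b) • n by
          rw [sub_smul, one_smul]]
        exact Submodule.smul_mem_smul
          (by rw [RingHom.mem_ker, map_sub, map_one, hεu₀, sub_self]) Submodule.mem_top
      set n := m - u • m' with hn
      have hcn : c • n ∈ Jr • (⊤ : Submodule B M) := by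
        rw [hn, smul_sub, ← hm, ← hm', smul_smul, add_sub_cancel_right]
        exact hm₁
      have hcn' : augAt Φ hT M (Finset.univ : Finset (Fin e)) (emb Φ M Finset.univ u₀ (c • n)) ∈
          Jr • (⊤ : Submodule B M) := by
        rw [augAt_apply]
        simp only [emb_apply, if_true]
        exact Submodule.sum_mem _ fun b _ =>
          Submodule.smul_mem _ _ (Submodule.smul_mem _ _ hcn)
      obtain ⟨v, hv, hdv⟩ := exists_dP_eq Φ (Function.update z i 0) hT M
        (emb Φ M Finset.univ u₀ (c • n)) (emb_mem_degP Φ M _ _ _ _ fun b hb => by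
          rw [Finset.card_univ, Fintype.card_fin, Nat.sub_self, add_zero] at hb
          exact hu₀ b hb) hcn'
      let v' : Φ.F.ι × Finset (Fin e) → M := fun q => if q.2 = S then 0 else v q
      have hscard : S.card = e - 1 := by
        rw [hS, Finset.card_erase_of_mem (Finset.mem_univ i), Finset.card_univ, Fintype.card_fin]
      have hepos : 0 < e := i.pos
      have hv0 : ∀ b, Φ.F.pos b ≠ 0 → v (b, S) = 0 := fun b hb => hv b S (by omega)
      have hdv' : dP Φ zc M v' = emb Φ M Finset.univ u₀ (c • n) := by
        rw [← hdv]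
        funext ⟨b, U⟩
        rw [dP_apply, dP_apply]
        congr 1
        · refine Finset.sum_congr rfl fun g _ => ?_
          by_cases hU : U = S
          · subst hU
            by_cases hm0 : Φ.F.mat b g = 0
            · simp [hm0]
            · have := Φ.F.mat_pos b g hm0
              rw [hv0 g (by omega)]
              simp [v']
          · simp [v', hU]
        · refine Finset.sum_congr rfl fun U' _ => ?_
          by_cases hU' : U' = S
          · subst hU'
            have h0 : kosMat (Function.update z i 0) U S = 0 := by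
              by_contra hne
              obtain ⟨a, ha, rfl⟩ := exists_of_kosMat_ne_zero hne
              have hai : a = i := by_contra fun h => ha (Finset.mem_erase.2 ⟨h, Finset.mem_univ a⟩)
              apply hne
              rw [kosMat_insert _ ha, hai, Function.update_self, smul_zero]
            simp [v', h0]
          · have hv1 : v' (b, U') = v (b, U') := if_neg hU'
            rw [hv1]
            by_cases hz : v (b, U') = 0
            · simp [hz]
            congr 2
            have hp : Φ.F.pos b + (e - U'.card) = 1 := by_contra fun h => hz (hv b U' h)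
            by_cases hex : ∃ a, a ∉ U' ∧ U = insert a U'
            · obtain ⟨a, ha, rfl⟩ := hex
              have hai : a ≠ i := by
                rintro rfl
                apply hU'
                have hsub : U' ⊆ S := fun t ht =>
                  Finset.mem_erase.2 ⟨fun e => ha (e ▸ ht), Finset.mem_univ t⟩
                exact Finset.eq_of_subset_of_card_le hsub (by omega)
              rw [kosMat_insert _ ha, kosMat_insert _ ha, hzc, Function.update_of_ne hai,
                Function.update_of_ne hai]
            · rw [show kosMat zc U U' = 0 from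
                  by_contra fun h => hex (exists_of_kosMat_ne_zero h),
                show kosMat (Function.update z i 0) U U' = 0 from
                  by_contra fun h => hex (exists_of_kosMat_ne_zero h)]
      let ω : Φ.F.ι × Finset (Fin e) → M := emb Φ M S (σ • u₀) n
      have hdω : dP Φ zc M ω = emb Φ M Finset.univ u₀ (c • n) := by
        funext ⟨b, U⟩
        rw [dP_emb, emb_apply, dA_eq_zero_of_pos_zero Φ (fun b hb => by simp [hu₀ b hb])]
        simp only [Pi.zero_apply, zero_smul, ite_self, zero_add, Pi.smul_apply, smul_eq_mul]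
        have hins : insert i S = (Finset.univ : Finset (Fin e)) :=
          Finset.insert_erase (Finset.mem_univ i)
        by_cases h : U = Finset.univ
        · have hk := kosMat_insert zc (S := S) (Finset.notMem_erase i _)
          rw [hins] at hk
          rw [if_pos h, h, hk, zsmul_eq_mul, ← hσ, hzc, Function.update_self, smul_smul]
          congr 1
          by_cases hp : Φ.F.pos b = 0
          · simp only [FreeCx.sgn, hp, pow_zero, one_mul]
            linear_combination (c * u₀ b) * hσσ
          · rw [hu₀ _ hp]; ring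
        · have h0 : kosMat zc U S = 0 := by
            by_contra hne
            obtain ⟨a, ha, he⟩ := exists_of_kosMat_ne_zero hne
            have : a = i :=
              by_contra fun hne' => ha (Finset.mem_erase.2 ⟨hne', Finset.mem_univ a⟩)
            exact h (by rw [he, this, hins])
          rw [if_neg h, h0, mul_zero, zero_mul, zero_smul]
      refine ⟨ω - v', (Diff.mem_cycles _).2 ⟨trivial, ?_, ?_⟩, ?_⟩
      · refine (deg_eq_degP Φ zc M 1 _).2 (sub_mem ?_ ?_)
        · refine emb_mem_degP Φ M _ _ _ _ fun b hb => ?_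
          rw [Pi.smul_apply, hu₀ b (fun h0 => hb (by omega)), smul_zero]
        · intro b U h
          change (if U = S then 0 else v (b, U)) = 0
          rw [hv b U h, ite_self]
      · have h0 : dP Φ zc M (ω - v') = 0 := by rw [map_sub, hdω, hdv', sub_self]
        change dP Φ zc M (ω - v') ∈ _
        rw [h0]
        exact zero_mem _
      · change σ • (Ju • (⊤ : Submodule B M)).mkQ (augAt Φ hT M S (ω - v')) = _
        rw [map_sub, show augAt Φ hT M S v' = 0 by simp [augAt_apply, v'], sub_zero,
          Submodule.mkQ_apply, ← Submodule.Quotient.mk_smul, Submodule.Quotient.eq]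
        have e1 : σ • augAt Φ hT M S ω = (∑ b, coefc Φ hT b * u₀ b) • n := by
          rw [augAt_apply, Finset.smul_sum, Finset.sum_smul]
          refine Finset.sum_congr rfl fun b _ => ?_
          simp only [ω, emb_apply, if_true, Pi.smul_apply, smul_eq_mul, smul_smul]
          congr 1
          linear_combination (coefc Φ hT b * u₀ b) * hσσ
        rw [e1]
        have hI : kerI B T ≤ Ju := le_sup_left
        have h6 := Submodule.smul_mono_left hI (hsub n)
        have h7 : u • m' ∈ Ju • (⊤ : Submodule B M) := Submodule.smul_mem_smul (by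
          rw [hJu, hdec]
          exact Submodule.mem_sup_right (Ideal.mem_span_singleton_self u)) Submodule.mem_top
        have h8 := sub_mem (neg_mem h6) h7
        convert h8 using 1
        rw [hn]; abel
    refine (length_le_of_le h4).trans ?_
    have : Zc.map φ = (Zc.map N.mkQ).map (N.liftQ φ hkill) := by
      rw [← Submodule.map_comp, Submodule.liftQ_mkQ]
    rw [this]
    exact length_map_le _ _
  calc qLen Jc M + qLen Ju M
      = qLen Jc M + (Module.length B (LinearMap.ker μ) + Module.length B (LinearMap.range μ)) := by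
        rw [show qLen Ju M = _ from h1]
    _ = qLen Jcu M + Module.length B (LinearMap.ker μ) := by rw [h2]; abel
    _ ≤ _ := by gcongr

end Param

end Vale.Agent.P202.Mixed.MainG
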