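import Vale.Agent.P202.Mixed.Main.Quot

/-!
# P202 mixed characteristic, block G: one step of the tower

The length of an almost free module of a chain modulo an ideal is at most the growth of the tower
at that step, up to the error and the colength of `h`.
-/

noncomputable section

namespace Vale.Agent.P202.Mixed.MainG

open IsLocalRing

universe u

variable {B : Type u} [CommRing B] [IsLocalRing B]

section Chain

variable {d : ℕ} {x : Fin d → B} {h : B} {D Q K v D₁ E : ℕ} (Ch : Chain B x h D Q K v D₁ E)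
  (J : Ideal B)

/-- The levels of a module modulo the ideal. -/
def toU (l u : ℕ) : Ch.M l →ₗ[B] ModJ J (Ch.M l ⧸ levB Ch l u) :=
  (Submodule.mkQ _).comp (levB Ch l u).mkQ

theorem toU_surjective (l u : ℕ) : Function.Surjective (toU Ch J l u) :=
  (Submodule.mkQ_surjective _).comp (Submodule.mkQ_surjective _)

theorem ker_toU_le (l u : ℕ) :
    LinearMap.ker (toU Ch J l u) ≤ J • (⊤ : Submodule B (Ch.M l)) ⊔ levB Ch l u := by
  intro m hm
  rw [LinearMap.mem_ker, toU, LinearMap.comp_apply, Submodule.mkQ_apply,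
    Submodule.Quotient.mk_eq_zero,
    show J • (⊤ : Submodule B (Ch.M l ⧸ levB Ch l u)) =
      (J • (⊤ : Submodule B (Ch.M l))).map (levB Ch l u).mkQ by
      rw [Submodule.map_smul'', Submodule.map_top, Submodule.range_mkQ]] at hm
  obtain ⟨n, hn, hnm⟩ := hm
  rw [Submodule.mkQ_apply, Submodule.mkQ_apply, Submodule.Quotient.eq] at hnm
  have : m = n - (n - m) := by abel
  rw [this]
  exact sub_mem (Submodule.mem_sup_left hn) (Submodule.mem_sup_right hnm)

theorem smul_top_le_ker_toU (l u : ℕ) :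
    J • (⊤ : Submodule B (Ch.M l)) ≤ LinearMap.ker (toU Ch J l u) := fun m hm => by
  rw [LinearMap.mem_ker, toU, LinearMap.comp_apply, Submodule.mkQ_apply,
    Submodule.Quotient.mk_eq_zero]
  exact Submodule.smul_top_le_comap_smul_top J (levB Ch l u).mkQ hm

/-- The levels are small modulo the ideal, once their comparison filtration is inside it. -/
theorem length_lev_map_le {l u : ℕ} (hl : l < D) (hu : u ≤ v)
    (hfil : (fil B (d := d) (Ch.M l) K ((u - l * K : ℕ) : ℤ)).restrictScalars B ≤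
      J • (⊤ : Submodule B (Ch.M l))) :
    Module.length B ↥((levB Ch l u).map (J • (⊤ : Submodule B (Ch.M l))).mkQ) ≤ (E : ℕ∞) := by
  refine le_trans ?_ ((length_map_le (Submodule.factor hfil) _).trans (Ch.lev_small l u hl hu))
  rw [← Submodule.map_comp, Submodule.factor_comp_mk]

/-- The kernel to the levels, modulo the ideal. -/
theorem length_ker_toLev_le (hJ : Module.length B (B ⧸ J) ≠ ⊤) {l u : ℕ} (hl : l < D) (hu : u ≤ v) :
    Module.length B (LinearMap.ker (mapJ J (toLevB Ch l u))) ≤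
      ((3 : ℕ) : ℕ∞) * (((D₁ * Q ^ d : ℕ) : ℕ∞) * Module.length B (B ⧸ (J ⊔ Ideal.span {h}))) +
        (E : ℕ∞) := by
  have hgen : GensLE (B := B) (D₁ * Q ^ d) (LinearMap.ker (Ch.proj l u)) := Ch.gensKer l u hl hu
  have hfin : Module.length B (ModJ J (LinearMap.ker (Ch.proj l u))) ≠ ⊤ :=
    ne_top_of_le_ne_top (WithTop.mul_ne_top (ENat.natCast_ne_top _) hJ)
      (length_quot_smul_le hgen J)
  refine (length_le_of_le (LinearMap.ker_le_ker_comp _ (mapJ J (ofLevB Ch l u)))).trans ?_
  rw [← mapJ_comp, show (ofLevB Ch l u).comp (toLevB Ch l u) = h ^ 3 • Ch.opK l u from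
    LinearMap.ext fun z => ofLevB_toLevB Ch hl hu z, length_ker_eq_coker _ hfin]
  let π := (J • (⊤ : Submodule B (LinearMap.ker (Ch.proj l u)))).mkQ
  have hr : LinearMap.range (mapJ J (h ^ 3 • Ch.opK l u)) =
      LinearMap.range (h ^ 3 • π.comp (Ch.opK l u)) := by
    rw [← LinearMap.range_comp_of_range_eq_top (mapJ J (h ^ 3 • Ch.opK l u)) (f := π)
      (Submodule.range_mkQ _)]
    rfl
  rw [hr]
  obtain ⟨s, hs⟩ := hgen
  exact (length_coker_smul_le π (Submodule.mkQ_surjective _) _ _).trans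
    (add_le_add (length_coker_pow_le J h s hs 3) (Ch.opK_coker l u hl hu))

/-- The cokernel to the levels, modulo the ideal. -/
theorem length_coker_toLev_le {l u : ℕ} (hl : l < D) (hu : u ≤ v) :
    Module.length B (ModJ J (Ch.M l ⧸ levB Ch l u) ⧸ LinearMap.range (mapJ J (toLevB Ch l u))) ≤
      ((3 : ℕ) : ℕ∞) * (((D₁ * Q ^ d : ℕ) : ℕ∞) * Module.length B (B ⧸ (J ⊔ Ideal.span {h}))) +
        (E : ℕ∞) := by
  obtain ⟨s, hs⟩ := GensLE.of_surjective (B := B) (Ch.gensM l hl)
    (Submodule.mkQ_surjective (levB Ch l u))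
  have hop : Module.length B
      (Ch.M l ⧸ LinearMap.range ((Ch.opM l).restrictScalars B)) ≤ (E : ℕ∞) :=
    le_of_eq_of_le (Submodule.Quotient.restrictScalarsEquiv B
      (LinearMap.range (Ch.opM l))).length_eq (Ch.opM_coker l hl)
  refine le_trans (length_quot_le_of_le ?_)
    ((length_coker_smul_le (toU Ch J l u) (toU_surjective Ch J l u)
      ((Ch.opM l).restrictScalars B) (h ^ 3)).trans
        (add_le_add (length_coker_pow_le J h s hs 3) hop))
  rintro _ ⟨m, rfl⟩
  refine ⟨Submodule.Quotient.mk (ofLevB Ch l u (Submodule.Quotient.mk m)), ?_⟩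
  rw [mapJ_mk, toLevB_ofLevB Ch hl hu]
  rfl

/-- The kernel of the transitions, modulo the ideal. -/
theorem length_ker_trans_le (hJ : Module.length B (B ⧸ J) ≠ ⊤) {l w W : ℕ} (hw : w ≤ W)
    (hl : l < D) (hW : W ≤ v)
    (hfil : (fil B (d := d) (Ch.M l) K ((w - l * K : ℕ) : ℤ)).restrictScalars B ≤
      J • (⊤ : Submodule B (Ch.M l))) :
    Module.length B (LinearMap.ker (mapJ J (kerRes Ch hw hl hW))) ≤
      ((3 : ℕ) : ℕ∞) * (((D₁ * Q ^ d : ℕ) : ℕ∞) * Module.length B (B ⧸ (J ⊔ Ideal.span {h}))) +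
        (E : ℕ∞) + (E : ℕ∞) := by
  refine (length_le_of_le (LinearMap.ker_le_ker_comp _ (mapJ J (toLevB Ch l w)))).trans ?_
  rw [← mapJ_comp, show (toLevB Ch l w).comp (kerRes Ch hw hl hW) =
      (levProj Ch hw hl hW).comp (toLevB Ch l W) from
    LinearMap.ext fun z => toLevB_kerRes Ch hw hl hW z, mapJ_comp]
  refine (length_ker_comp_le _ _).trans (add_le_add (length_ker_toLev_le Ch J hJ hl hW) ?_)
  refine le_trans ?_ ((length_map_le ((J • (⊤ : Submodule B (Ch.M l))).liftQ (toU Ch J l W)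
    (smul_top_le_ker_toU Ch J l W)) _).trans (length_lev_map_le Ch J hl (hw.trans hW) hfil))
  rw [← Submodule.map_comp, Submodule.liftQ_mkQ]
  refine length_le_of_le fun q hq => ?_
  obtain ⟨m, rfl⟩ := toU_surjective Ch J l W q
  have hm : toU Ch J l w m = 0 := hq
  obtain ⟨m₁, hm₁, m₂, hm₂, rfl⟩ := Submodule.mem_sup.1 (ker_toU_le Ch J l w hm)
  exact ⟨m₂, hm₂, by rw [map_add, LinearMap.mem_ker.1 (smul_top_le_ker_toU Ch J l W hm₁),
    zero_add]⟩

/-- The module against the kernel, modulo the ideal. -/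
theorem qLen_le_ker {l u : ℕ} (hl : l < D) (hu : u ≤ v)
    (hfil : (fil B (d := d) (Ch.M l) K ((u - l * K : ℕ) : ℤ)).restrictScalars B ≤
      J • (⊤ : Submodule B (Ch.M l))) :
    qLen J (Ch.M l) ≤ Module.length B (ModJ J (LinearMap.ker (Ch.proj l u))) +
      (((3 : ℕ) : ℕ∞) * (((D₁ * Q ^ d : ℕ) : ℕ∞) * Module.length B (B ⧸ (J ⊔ Ideal.span {h}))) +
        (E : ℕ∞)) + (E : ℕ∞) := by
  refine (length_quot_le_map (J • (⊤ : Submodule B (Ch.M l))) (levB Ch l u)).trans
    (add_le_add ?_ (length_lev_map_le Ch J hl hu hfil))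
  refine (length_quot_le_of_le (ker_toU_le Ch J l u)).trans ?_
  rw [((toU Ch J l u).quotKerEquivOfSurjective (toU_surjective Ch J l u)).length_eq,
    length_submodule_add (LinearMap.range (mapJ J (toLevB Ch l u)))]
  exact add_le_add (Module.length_le_of_surjective _ (LinearMap.surjective_rangeRestrict _))
    (length_coker_toLev_le Ch J hl hu)

end Chain

section Step

variable {T : Type u} [CommRing T] [Algebra B T] (Φ : NC.Reso B T) {e : ℕ} (z : Fin e → B)
  (hT : Function.Surjective (algebraMap B T))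
  {d : ℕ} {x : Fin d → B} {h : B} {D Q K v D₁ E : ℕ} (Ch : Chain B x h D Q K v D₁ E)

include hT in
/-- One step of the tower modulo the ideal of the parameters. -/
theorem qLen_step_tower (hJ : Module.length B (B ⧸ parIdeal T z) ≠ ⊤) {l w W : ℕ} (hw : w ≤ W)
    (hl : l < D) (hW : W ≤ v)
    (hfilw : (fil B (d := d) (Ch.M l) K ((w - l * K : ℕ) : ℤ)).restrictScalars B ≤
      parIdeal T z • (⊤ : Submodule B (Ch.M l)))
    (hfilW : (fil B (d := d) (Ch.M l) K ((W - l * K : ℕ) : ℤ)).restrictScalars B ≤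
      parIdeal T z • (⊤ : Submodule B (Ch.M l)))
    (B₀ : ℕ∞) (him : imLen (par Φ z) (h ^ (3 * l) • Ch.res l w W hw) ≤ B₀) :
    qLen (parIdeal T z) (Ch.M l) + Module.length B (ModJ (parIdeal T z) (Ch.X l W)) ≤
      Module.length B (ModJ (parIdeal T z) (Ch.X (l + 1) W)) + (B₀ + ((3 * l + 6 : ℕ) : ℕ∞) *
        (((D₁ * Q ^ d : ℕ) : ℕ∞) * Module.length B (B ⧸ (parIdeal T z ⊔ Ideal.span {h}))) +
        ((4 * E : ℕ) : ℕ∞)) := by
  set J := parIdeal T z
  set mt := ((D₁ * Q ^ d : ℕ) : ℕ∞) * Module.length B (B ⧸ (J ⊔ Ideal.span {h})) with hmt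
  set P := Ch.proj l W
  set ι := mapJ J (LinearMap.ker P).subtype with hι
  have hgen : GensLE (B := B) (D₁ * Q ^ d) (LinearMap.ker P) := Ch.gensKer l W hl hW
  have hfin : Module.length B (ModJ J (LinearMap.ker P)) ≠ ⊤ :=
    ne_top_of_le_ne_top (WithTop.mul_ne_top (ENat.natCast_ne_top _) hJ)
      (length_quot_smul_le hgen J)
  have hsum : Module.length B (LinearMap.range ι) + Module.length B (ModJ J (Ch.X l W)) ≤
      Module.length B (ModJ J (Ch.X (l + 1) W)) := by
    have hsurj : Function.Surjective (mapJ J P) := mapJ_surjective J (Ch.proj_surj l W hl hW)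
    rw [length_submodule_add (LinearMap.ker (mapJ J P)),
      ((mapJ J P).quotKerEquivOfSurjective hsurj).length_eq]
    refine add_le_add (length_le_of_le ?_) le_rfl
    rintro _ ⟨q, rfl⟩
    obtain ⟨a, rfl⟩ := Submodule.Quotient.mk_surjective _ q
    rw [hι, LinearMap.mem_ker, mapJ_mk, mapJ_mk, Submodule.subtype_apply,
      show P (a : Ch.X (l + 1) W) = 0 from a.2, Submodule.Quotient.mk_zero]
  have hker : Module.length B (LinearMap.ker ι) ≤
      ((3 * l : ℕ) : ℕ∞) * mt + (((3 : ℕ) : ℕ∞) * mt + (E : ℕ∞) + (E : ℕ∞)) + B₀ := by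
    set R := mapJ J (h ^ (3 * l) • kerRes Ch hw hl hW) with hR
    rw [length_ker_add_range (R.comp (LinearMap.ker ι).subtype)]
    refine add_le_add ?_ ?_
    · refine le_trans ?_ (b := Module.length B (LinearMap.ker R)) ?_
      · refine Module.length_le_of_injective (LinearMap.codRestrict _
          ((LinearMap.ker ι).subtype.comp (LinearMap.ker _).subtype) fun a => a.2) ?_
        intro a b hab
        have h2 := congrArg Subtype.val hab
        exact Subtype.ext (Subtype.ext h2)
      have hRc : R = (mapJ J (kerRes Ch hw hl hW)).comp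
          (h ^ (3 * l) • (LinearMap.id : ModJ J (LinearMap.ker P) →ₗ[B] _)) := by
        refine LinearMap.ext fun q => ?_
        obtain ⟨a, rfl⟩ := Submodule.Quotient.mk_surjective _ q
        rw [hR, LinearMap.comp_apply, LinearMap.smul_apply, LinearMap.id_apply, map_smul, mapJ_mk,
          mapJ_mk, LinearMap.smul_apply, Submodule.Quotient.mk_smul]
      rw [hRc]
      refine (length_ker_comp_le _ _).trans
        (add_le_add ?_ (length_ker_trans_le Ch J hJ hw hl hW hfilw))
      rw [length_ker_eq_coker _ hfin]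
      obtain ⟨s, hs⟩ := hgen
      exact length_coker_pow_le J h s hs (3 * l)
    · rw [LinearMap.range_comp, Submodule.range_subtype]
      refine le_trans ?_ him
      refine length_map_ker_le Φ z hT (LinearMap.ker P).subtype P
        (LinearMap.ker (Ch.proj l w)).subtype (Ch.proj l w) (Submodule.subtype_injective _)
        (Submodule.subtype_injective _) (Ch.proj_surj l w hl (hw.trans hW)) (fun a => a.2)
        (fun a ha => ⟨⟨a, ha⟩, rfl⟩) (fun a ha => ⟨⟨a, ha⟩, rfl⟩) _
        (h ^ (3 * l) • Ch.res (l + 1) w W hw) _ (fun a => rfl) fun a => ?_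
      rw [LinearMap.smul_apply, LinearMap.smul_apply, map_smul, Ch.res_proj l w W hw hl hW]
  refine (add_le_add (qLen_le_ker Ch J hl hW hfilW) le_rfl).trans ?_
  rw [length_ker_add_range ι]
  refine (le_of_eq ?_).trans ((add_le_add hsum (add_le_add (add_le_add hker
    (le_refl (((3 : ℕ) : ℕ∞) * mt + (E : ℕ∞)))) (le_refl (E : ℕ∞)))).trans (le_of_eq ?_))
  · simp only [hmt]; ring
  · simp only [hmt]; push_cast; ring

end Step

end Vale.Agent.P202.Mixed.MainG
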