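import Vale.Agent.P202.Mixed.Main.ImLen
import Vale.Agent.P202.Mixed.Main.Regular
import Vale.Agent.P202.Mixed.Interface

/-!
# P202 mixed characteristic, block G: transitions along the tower

The transitions of the first homology on the quotients of a chain, multiplied by a power of `h`,
have image of length bounded by the error.
-/

noncomputable section

namespace Vale.Agent.P202.Mixed.MainG

open IsLocalRing

universe u

variable {B : Type u} [CommRing B] [IsLocalRing B]

/-- Finite generation by `m` elements. -/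
def GensLE (m : ℕ) (N : Type u) [AddCommGroup N] [Module B N] : Prop :=
  ∃ s : Fin m → N, Submodule.span B (Set.range s) = ⊤

omit [IsLocalRing B] in
/-- A module with `m` generators, modulo an ideal. -/
theorem length_quot_smul_le {m : ℕ} {N : Type u} [AddCommGroup N] [Module B N]
    (hN : GensLE (B := B) m N) (I : Ideal B) :
    Module.length B (N ⧸ (I • (⊤ : Submodule B N))) ≤
      (m : ℕ∞) * Module.length B (B ⧸ I) := by
  classical
  obtain ⟨s, hs⟩ := hN
  let f : (Fin m → B ⧸ I) →ₗ[B] (N ⧸ (I • (⊤ : Submodule B N))) :=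
    LinearMap.lsum B (fun _ : Fin m => B ⧸ I) B fun i =>
      Submodule.mapQ I (I • (⊤ : Submodule B N)) (LinearMap.toSpanSingleton B N (s i))
        fun r hr => Submodule.smul_mem_smul hr Submodule.mem_top
  refine (Module.length_le_of_surjective f ?_).trans (le_of_eq ?_)
  · intro q
    obtain ⟨n, rfl⟩ := Submodule.Quotient.mk_surjective _ q
    obtain ⟨c, hc⟩ := (Submodule.mem_span_range_iff_exists_fun B).1
      (hs.symm ▸ Submodule.mem_top : n ∈ Submodule.span B (Set.range s))
    refine ⟨fun i => Submodule.Quotient.mk (c i), ?_⟩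
    rw [← hc]
    simp [f, ← Submodule.mkQ_apply, map_sum]
    exact Finset.sum_congr rfl fun x _ => rfl
  · simp

omit [IsLocalRing B] in
theorem GensLE.finite {m : ℕ} {N : Type u} [AddCommGroup N] [Module B N]
    (hN : GensLE (B := B) m N) : Module.Finite B N := by
  obtain ⟨s, hs⟩ := hN
  exact ⟨hs ▸ Submodule.fg_span (Set.finite_range s)⟩

omit [IsLocalRing B] in
theorem GensLE.of_surjective {m : ℕ} {N N' : Type u} [AddCommGroup N] [Module B N]
    [AddCommGroup N'] [Module B N'] (hN : GensLE (B := B) m N) {f : N →ₗ[B] N'}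
    (hf : Function.Surjective f) : GensLE (B := B) m N' := by
  obtain ⟨s, hs⟩ := hN
  refine ⟨f ∘ s, ?_⟩
  rw [Set.range_comp, ← Submodule.map_span, hs, Submodule.map_top, LinearMap.range_eq_top.2 hf]

section Chain

variable {d : ℕ} {x : Fin d → B} {h : B} {D Q K v D₁ E : ℕ} (Ch : Chain B x h D Q K v D₁ E)

/-- The levels as modules over the base. -/
abbrev levB (l w : ℕ) : Submodule B (Ch.M l) := (Ch.lev l w).restrictScalars B

/-- The projection of the levels. -/
def levProj {l w w' : ℕ} (hw : w ≤ w') (hl : l < D) (hv : w' ≤ v) :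
    (Ch.M l ⧸ levB Ch l w') →ₗ[B] (Ch.M l ⧸ levB Ch l w) :=
  Submodule.factor fun _ hm => Ch.lev_anti l w w' hl hw hv hm

/-- Transition between the kernels. -/
def kerRes {l w w' : ℕ} (hw : w ≤ w') (hl : l < D) (hv : w' ≤ v) :
    LinearMap.ker (Ch.proj l w') →ₗ[B] LinearMap.ker (Ch.proj l w) :=
  LinearMap.codRestrict _ ((Ch.res (l + 1) w w' hw).comp (LinearMap.ker (Ch.proj l w')).subtype)
    fun z => by
      change Ch.proj l w (Ch.res (l + 1) w w' hw z) = 0
      rw [← Ch.res_proj l w w' hw hl hv, show Ch.proj l w' z = 0 from z.2, map_zero]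

theorem kerRes_coe {l w w' : ℕ} (hw : w ≤ w') (hl : l < D) (hv : w' ≤ v)
    (z : LinearMap.ker (Ch.proj l w')) :
    (kerRes Ch hw hl hv z : Ch.X (l + 1) w) = Ch.res (l + 1) w w' hw z := rfl

/-- The quotient by the levels of the operators, over the base. -/
def toLevB (l w : ℕ) : LinearMap.ker (Ch.proj l w) →ₗ[B] (Ch.M l ⧸ levB Ch l w) :=
  (Submodule.Quotient.restrictScalarsEquiv B (Ch.lev l w)).symm.toLinearMap.comp (Ch.toLev l w)

/-- The way back. -/
def ofLevB (l w : ℕ) : (Ch.M l ⧸ levB Ch l w) →ₗ[B] LinearMap.ker (Ch.proj l w) :=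
  (Ch.ofLev l w).comp (Submodule.Quotient.restrictScalarsEquiv B (Ch.lev l w)).toLinearMap

theorem ofLevB_mk (l w : ℕ) (m : Ch.M l) :
    ofLevB Ch l w (Submodule.Quotient.mk m) = Ch.ofLev l w (Submodule.Quotient.mk m) := rfl

theorem toLevB_eq_mk_iff (l w : ℕ) (z : LinearMap.ker (Ch.proj l w)) (m : Ch.M l) :
    toLevB Ch l w z = Submodule.Quotient.mk m ↔ Ch.toLev l w z = Submodule.Quotient.mk m :=
  (Submodule.Quotient.restrictScalarsEquiv B (Ch.lev l w)).symm_apply_eq

theorem ofLevB_toLevB {l w : ℕ} (hl : l < D) (hw : w ≤ v) (z : LinearMap.ker (Ch.proj l w)) :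
    ofLevB Ch l w (toLevB Ch l w z) = h ^ 3 • Ch.opK l w z := by
  rw [← Ch.of_to l w hl hw z]
  simp [ofLevB, toLevB]

theorem toLevB_ofLevB {l w : ℕ} (hl : l < D) (hw : w ≤ v) (m : Ch.M l) :
    toLevB Ch l w (ofLevB Ch l w (Submodule.Quotient.mk m)) =
      Submodule.Quotient.mk (h ^ 3 • Ch.opM l m) := by
  rw [toLevB_eq_mk_iff, ofLevB_mk, Ch.to_of l w hl hw m]
  rfl

theorem kerRes_ofLevB {l w w' : ℕ} (hw : w ≤ w') (hl : l < D) (hv : w' ≤ v) (m : Ch.M l) :
    kerRes Ch hw hl hv (ofLevB Ch l w' (Submodule.Quotient.mk m)) =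
      ofLevB Ch l w (Submodule.Quotient.mk m) := by
  refine Subtype.ext ?_
  rw [kerRes_coe, ofLevB_mk, ofLevB_mk]
  exact Ch.of_res l w w' hw hl hv m

theorem toLevB_kerRes {l w w' : ℕ} (hw : w ≤ w') (hl : l < D) (hv : w' ≤ v)
    (z : LinearMap.ker (Ch.proj l w')) :
    toLevB Ch l w (kerRes Ch hw hl hv z) = levProj Ch hw hl hv (toLevB Ch l w' z) := by
  obtain ⟨m, hm⟩ := Submodule.Quotient.mk_surjective _ (toLevB Ch l w' z)
  rw [← hm]
  change _ = Submodule.Quotient.mk m
  rw [toLevB_eq_mk_iff]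
  exact Ch.to_res l w w' hw hl hv z _ (kerRes_coe Ch hw hl hv z) m
    ((toLevB_eq_mk_iff Ch l w' z m).1 hm.symm)

open Vale.Agent.P202 in
/-- Transitions between the levels of the modules have small image on first homology, by stable
vanishing on the modules. -/
theorem imLen_levProj_le (G : FreeCx B) {l : ℕ} (hl : l < D) (w w' Δ : ℕ) (Cst : ℕ)
    (hw : w ≤ w' + Δ + l * K) (hw' : w - l * K = w') (hv : w' + Δ + l * K ≤ v)
    (hst : stabLen B (d := d) (Ch.M l) G K 0 (w' : ℤ) ((w' + Δ : ℕ) : ℤ) 1 ≤ ((Cst * E : ℕ) : ℕ∞)) :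
    imLen G (levProj Ch hw hl hv) ≤ (((Fintype.card G.ι + Cst) * E : ℕ) : ℕ∞) := by
  classical
  set w1 := w' + Δ + l * K with hw1
  set Z := (G.diff (Ch.M l) B).cycles ⊤ (filG B (d := d) (Ch.M l) G K 0 ((w' + Δ : ℕ) : ℤ)) 1
  set N := (G.diff (Ch.M l) B).bdries ⊤ (filG B (d := d) (Ch.M l) G K 0 (w' : ℤ)) 1
  let A : Submodule B (G.ι → Ch.M l) := (G.diff (Ch.M l) B).deg 1 ⊓
    (Submodule.pi Set.univ fun _ => levB Ch l w1).comap (G.diff (Ch.M l) B).d
  let q : (G.ι → Ch.M l) →ₗ[B]
      (G.ι → Ch.M l ⧸ levB Ch l w) ⧸ (G.diff (Ch.M l ⧸ levB Ch l w) B).bdries ⊤ ⊥ 1 :=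
    (Submodule.mkQ _).comp (G.coef B (levB Ch l w).mkQ)
  have hrange : LinearMap.range (imMap G (levProj Ch hw hl hv)) ≤
      LinearMap.range (q.comp A.subtype) := by
    rintro _ ⟨a, rfl⟩
    obtain ⟨-, had, hac⟩ := (Diff.mem_cycles _).1 a.2
    rw [Submodule.mem_bot] at hac
    let f : G.ι → Ch.M l := G.posProj (Ch.M l) 1
      fun g => Function.surjInv (Submodule.mkQ_surjective (levB Ch l w1)) (a.1 g)
    have hf : G.coef B (levB Ch l w1).mkQ f = a.1 := by
      funext g
      simp only [f, FreeCx.coef_apply, FreeCx.posProj_apply]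
      split_ifs with hg
      · exact Function.surjInv_eq (Submodule.mkQ_surjective _) _
      · rw [map_zero, had g hg]
    have hfA : f ∈ A := by
      refine ⟨FreeCx.posProj_mem_deg _ _, fun g _ => ?_⟩
      have h2 := congrFun (G.coef_d B (levB Ch l w1).mkQ f) g
      rw [hf, hac, FreeCx.coef_apply, Submodule.mkQ_apply, Pi.zero_apply,
        Submodule.Quotient.mk_eq_zero] at h2
      exact h2
    refine ⟨⟨f, hfA⟩, ?_⟩
    change Submodule.Quotient.mk (G.coef B (levB Ch l w).mkQ f) =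
      Submodule.Quotient.mk (G.coef B (levProj Ch hw hl hv) a.1)
    rw [← hf]
    rfl
  refine (length_le_of_le hrange).trans
    ((length_range_le_quot_add _ (Z.comap A.subtype)).trans ?_)
  rw [Nat.add_mul, Nat.cast_add, Nat.cast_mul]
  refine add_le_add ?_ ?_
  · -- differentials of the lifts in the deep level, up to the error
    set u : ℤ := ((w1 - l * K : ℕ) : ℤ) with hu
    set F := (fil B (d := d) (Ch.M l) K u).restrictScalars B with hF
    let c : A →ₗ[B] (G.ι → (levB Ch l w1).map F.mkQ) := LinearMap.pi fun g =>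
      LinearMap.codRestrict _ (F.mkQ.comp ((LinearMap.proj g).comp
        ((G.diff (Ch.M l) B).d.comp A.subtype))) fun a => ⟨_, a.2.2 g trivial, rfl⟩
    have hc : LinearMap.ker c ≤ Z.comap A.subtype := by
      intro a ha
      refine (Diff.mem_cycles _).2 ⟨trivial, a.2.1, fun g => ?_⟩
      have h2 := congrArg Subtype.val (congrFun (LinearMap.mem_ker.1 ha) g)
      change F.mkQ ((G.diff (Ch.M l) B).d a.1 g) = 0 at h2
      rw [Submodule.mkQ_apply, Submodule.Quotient.mk_eq_zero, hF, hu, hw1,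
        Nat.add_sub_cancel] at h2
      simpa using h2
    refine (length_quot_le_of_le hc).trans ?_
    refine (Module.length_le_of_injective ((LinearMap.ker c).liftQ c le_rfl)
      (LinearMap.ker_eq_bot.1 (Submodule.ker_liftQ_eq_bot _ _ le_rfl le_rfl))).trans ?_
    rw [Module.length_pi_of_fintype, Finset.sum_const, Finset.card_univ, nsmul_eq_mul]
    gcongr
    exact Ch.lev_small l w1 hl hv
  · -- the stable image
    have hkill : N ≤ LinearMap.ker q := by
      intro f hf
      obtain ⟨x', ⟨-, hx'⟩, y, ⟨hy, -⟩, he⟩ := (Diff.mem_bdries _).1 hf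
      have hy0 : G.coef B (levB Ch l w).mkQ y = 0 := funext fun g => by
        rw [FreeCx.coef_apply, Pi.zero_apply, Submodule.mkQ_apply, Submodule.Quotient.mk_eq_zero]
        refine Ch.lev_ge l w hl (hw.trans hv) ?_
        rw [hw']
        simpa using hy g
      rw [LinearMap.mem_ker]
      change Submodule.Quotient.mk (G.coef B (levB Ch l w).mkQ f) = 0
      rw [Submodule.Quotient.mk_eq_zero, ← he, map_add, hy0, add_zero, G.coef_d]
      exact (Diff.mem_bdries _).2 ⟨G.coef B (levB Ch l w).mkQ x',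
        ⟨trivial, G.coef_deg B _ _ _ hx'⟩, 0, ⟨zero_mem _, zero_mem _⟩, add_zero _⟩
    refine le_trans (length_le_of_le ?_) ((length_map_le (N.liftQ q hkill) (Z.map N.mkQ)).trans ?_)
    · rw [Submodule.map_comp, ← Submodule.map_comp _ _ Z, Submodule.liftQ_mkQ]
      exact Submodule.map_mono (Submodule.map_comap_le _ _)
    · exact hst.trans (le_of_eq (by rw [Nat.cast_mul]))

end Chain

/-- Transitions along the tower, times a power of `h`, have small image on first homology. -/
theorem imLen_res_le (hS : StableStatement.{u}) [IsNoetherianRing B] {d : ℕ} (hd : 1 ≤ d)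
    (x : Fin d → B) (hx : ∃ r, maximalIdeal B ^ r ≤ Ideal.span (Set.range x)) (G : FreeCx B)
    (hGl : G.LengthLE d) (hGn : NullPowers G x) (h : B) (D Q K : ℕ) (hQ : 1 ≤ Q) (hK : 1 ≤ K) :
    ∀ l w : ℕ, ∃ W, ∃ hwW : w ≤ W, ∃ v₀, W ≤ v₀ ∧ ∀ v, v₀ ≤ v → ∃ C : ℕ,
      ∀ (D₁ E : ℕ) (Ch : Chain B x h D Q K v D₁ E), l ≤ D →
        imLen G (h ^ (3 * l) • Ch.res l w W hwW) ≤ ((C * E : ℕ) : ℕ∞) := by
  classical
  obtain ⟨Δ, hΔ⟩ := hS B d hd x hx G hGl hGn Q K 0 hQ hK (Or.inl rfl)
  intro l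
  induction l with
  | zero =>
    refine fun w => ⟨w, le_rfl, w, le_rfl, fun v hv => ⟨0, fun D₁ E Ch _ => ?_⟩⟩
    have := Ch.zeroX w hv
    simp [imLen, Module.length_eq_zero]
  | succ l ih =>
    intro w
    set w' := w - l * K with hw'
    set w1 := w' + Δ + l * K with hw1
    have hww1 : w ≤ w1 := by omega
    obtain ⟨W, hW, v₀, hv₀, hC⟩ := ih w1
    obtain ⟨v₁, hv₁⟩ := hΔ w'
    refine ⟨W, hww1.trans hW, max v₀ v₁, hv₀.trans (le_max_left _ _), fun v hv => ?_⟩
    obtain ⟨C, hC⟩ := hC v ((le_max_left _ _).trans hv)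
    obtain ⟨C', hC'⟩ := hv₁ v ((le_max_right _ _).trans hv)
    refine ⟨C + ((Fintype.card G.ι + C') + 2 * Fintype.card G.ι), fun D₁ E Ch hl => ?_⟩
    have hlD : l < D := hl
    have hWv : W ≤ v := hv₀.trans ((le_max_left _ _).trans hv)
    have hw1v : w1 ≤ v := hW.trans hWv
    let g : Ch.X (l + 1) w1 →ₗ[B] Ch.X (l + 1) w := h ^ 3 • Ch.res (l + 1) w w1 hww1
    let f : Ch.X (l + 1) W →ₗ[B] Ch.X (l + 1) w1 := h ^ (3 * l) • Ch.res (l + 1) w1 W hW
    have hgf : h ^ (3 * (l + 1)) • Ch.res (l + 1) w W (hww1.trans hW) = g.comp f := by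
      refine LinearMap.ext fun z => ?_
      simp only [g, f, LinearMap.smul_apply, LinearMap.comp_apply, map_smul, smul_smul,
        Ch.res_trans (l + 1) w w1 W hww1 hW hl hWv]
      rw [← pow_add]
      ring_nf
    rw [hgf]
    refine (imLen_exact G (LinearMap.ker (Ch.proj l w1)).subtype (Ch.proj l w1)
      (Submodule.subtype_injective _) (Ch.proj_surj l w1 hlD hw1v)
      (fun a ha => ⟨⟨a, ha⟩, rfl⟩) g f).trans ?_
    rw [Nat.add_mul, Nat.cast_add]
    refine add_le_add ?_ ?_
    · have hqf : (Ch.proj l w1).comp f =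
          (h ^ (3 * l) • Ch.res l w1 W hW).comp (Ch.proj l W) := LinearMap.ext fun z => by
        simp only [f, LinearMap.comp_apply, LinearMap.smul_apply, map_smul,
          Ch.res_proj l w1 W hW hlD hWv]
      rw [hqf]
      exact (imLen_comp_le' G _ _).trans (hC D₁ E Ch hlD.le)
    · have hgι : g.comp (LinearMap.ker (Ch.proj l w1)).subtype =
          (LinearMap.ker (Ch.proj l w)).subtype.comp (h ^ 3 • kerRes Ch hww1 hlD hw1v) :=
        LinearMap.ext fun z => rfl
      rw [hgι]
      refine (imLen_comp_le G _ _).trans ((imLen_endo G _ (Ch.opK l w1)).trans ?_)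
      have hkr : (h ^ 3 • kerRes Ch hww1 hlD hw1v).comp (Ch.opK l w1) =
          (ofLevB Ch l w).comp ((levProj Ch hww1 hlD hw1v).comp (toLevB Ch l w1)) := by
        refine LinearMap.ext fun z => ?_
        rw [LinearMap.comp_apply, LinearMap.smul_apply, ← map_smul,
          ← ofLevB_toLevB Ch hlD hw1v z, LinearMap.comp_apply, LinearMap.comp_apply]
        obtain ⟨m, hm⟩ := Submodule.Quotient.mk_surjective _ (toLevB Ch l w1 z)
        rw [← hm, kerRes_ofLevB]
        rfl
      rw [hkr, Nat.add_mul, Nat.cast_add]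
      refine add_le_add ?_ ?_
      · refine (imLen_comp_le G _ _).trans ((imLen_comp_le' G _ _).trans ?_)
        exact imLen_levProj_le Ch G hlD w w' Δ C' hww1 rfl hw1v
          (hC' (Ch.M l) D₁ E (Ch.almostFree l hlD) 1 le_rfl)
      · have := GensLE.finite (Ch.gensKer l w1 hlD hw1v :
          GensLE (B := B) _ (LinearMap.ker (Ch.proj l w1)))
        have hck := Ch.opK_coker l w1 hlD hw1v
        have hke := (length_ker_le_coker (Ch.opK l w1)
          (ne_top_of_le_ne_top (ENat.natCast_ne_top E) hck)).trans hck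
        refine le_trans (mul_le_mul_of_nonneg_left (add_le_add hck hke) zero_le) (le_of_eq ?_)
        push_cast; ring

end Vale.Agent.P202.Mixed.MainG
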